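import Crest.Agent.X212.Gls64.Defs
import Crest.Agent.X212.Pb50.Pt
import Crest.Agent.X212.Map77.Tw

/-!
# Row 212, GL-ROW, GL-FRM, GL-U (helper93)
-/

set_option autoImplicit false
set_option linter.unusedSectionVars false
noncomputable section
open scoped Manifold ContDiff Topology InnerProductSpace NNReal
open MeasureTheory Set Function Filter

namespace Crest.Agent.X212.Gr93
open An An.Pre Sw Sob92 Prm93 Pb50
open M (Mf)

variable {κ lam ν : Type} [Fintype κ] [Fintype lam] [Fintype ν] [DecidableEq ν]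
  {d : Dt κ lam ν} {N : Type} [Fintype N] {ty : N → d.𝓔} {X X₁ : Mf 4} {nc nr n₁ : ℕ}
  {T T₁ : Type} [NormedAddCommGroup T] [NormedSpace ℝ T] [FiniteDimensional ℝ T]
  [NormedAddCommGroup T₁] [NormedSpace ℝ T₁] [FiniteDimensional ℝ T₁]
  {s : Pz X 0 fun i => d.e (ty i)}

section fam
variable {𝓕 : Fam s nc T} (h : 𝓕.OK) {t t₀ : T} (ht : t ∈ 𝓕.Q)
include h ht

theorem mix_inv : Mix (𝓕.P t).bg.F.toPre s.bg.F.toPre fun a b x => 𝓕.Si t x a b := fun a x => by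
  have hP : s.bg.F.P = s.bg.B.P := h.site.bg.G.P
  simp only [h.mix t ht _ x, Finset.smul_sum, smul_smul]
  rw [Finset.sum_comm]
  simp only [← Finset.sum_smul, h.SiS t ht, ← hP, s.bg.F.P_e]

/-- on the ends the measures agree -/
theorem μ_nk {i : N} {K : Nk (d.e (ty i)) s.bg} (hK : K ∈ s.nk i) :
    (𝓕.P t).bg.F.μ.restrict K.ψ.target = s.bg.F.μ.restrict K.ψ.target := by
  obtain ⟨K', -, k⟩ := h.en t ht i K hK
  have := K'.iso.μ
  rw [ng_ψ k] at this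
  exact this.symm.trans K.iso.μ

theorem μ_end (r : ℝ) :
    (𝓕.P t).bg.F.μ.restrict (s.core r)ᶜ = s.bg.F.μ.restrict (s.core r)ᶜ := by
  have h1 : (𝓕.P t).bg.F.μ.restrict (⋃ i, {x | ∃ K ∈ s.nk i, x ∈ K.ψ.target}) =
      s.bg.F.μ.restrict (⋃ i, {x | ∃ K ∈ s.nk i, x ∈ K.ψ.target}) := by
    refine Measure.restrict_iUnion_congr.2 fun i => ?_
    cases e : s.nk i with
    | none => simp
    | some K => simpa using μ_nk h ht e
  refine Measure.restrict_congr_mono (fun x hx => ?_) h1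
  simp only [Pz.core, mem_compl_iff, mem_ofPred, not_forall, not_not] at hx
  obtain ⟨i, b, K, hK, -, z, hz, rfl⟩ := hx
  exact mem_iUnion.2 ⟨i, K, hK, K.ψ.map_source (K.mem_src.2 hz.2.1)⟩

omit h ht in
theorem μ_le {F F' : Pre X.I X.M (Option κ)} {K : Set X.M} (hK : IsCompact K)
    (e : F'.μ.restrict Kᶜ = F.μ.restrict Kᶜ) : ∃ c : ℝ≥0, F'.μ ≤ c • F.μ := by
  obtain ⟨c, hc⟩ := meas_le_compact F F' hK
  refine ⟨c + 1, ?_⟩
  rw [← Measure.restrict_add_restrict_compl (μ := F'.μ) hK.measurableSet, add_smul, one_smul, e]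
  exact add_le_add hc Measure.restrict_le_self

/-- the frames of a family are comparable -/
theorem cmp : Cmp s.bg.F.toPre (𝓕.P t).bg.F.toPre :=
  ⟨⟨⟨_, h.mix t ht, fun a b => (h.sS a b).cb t ht⟩, μ_le (h.site.cpt 0) (μ_end h ht 0)⟩,
    ⟨_, mix_inv h ht, fun a b => (h.mix t ht).Cb (fun a b => (h.sS a b).cb t ht)
      ((h.sSi a b).cb t ht)⟩, μ_le (h.site.cpt 0) (μ_end h ht 0).symm⟩

theorem tw : Map77.Tw s.bg.F (𝓕.P t).bg.F := ⟨h.site.bg.tame, (h.ok t ht).bg.tame, cmp h ht⟩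

theorem e_rel (h₀ : t₀ ∈ 𝓕.Q) (a : Option κ) (x : X.M) : (𝓕.P t).bg.F.e a x =
    ∑ b, (∑ c, 𝓕.S t x a c * 𝓕.Si t₀ x c b) • (𝓕.P t₀).bg.F.e b x := by
  simp only [h.mix t ht a x, mix_inv h h₀ _ x, Finset.smul_sum, smul_smul, Finset.sum_smul]
  exact Finset.sum_comm

theorem SSi_P (a b : Option κ) (x : X.M) : ∑ l, s.bg.B.P b l x * ∑ c, 𝓕.S t₀ x a c * 𝓕.Si t x c l =
    ∑ c, 𝓕.S t₀ x a c * 𝓕.Si t x c b := by
  simp only [Finset.mul_sum, ← h.SiP t ht x _ b]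
  rw [Finset.sum_comm]
  exact Finset.sum_congr rfl fun c _ => Finset.sum_congr rfl fun l _ => by
    rw [(h.site.bg.B.pr x).symm b l]; ring

end fam

variable (d ty X nc T) in
/-- **GL-FRM** -/
theorem frm : Gls64.FrmStmt d ty X nc T := fun _ _ h _ ht => cmp h ht

variable (d ty X X₁ nc n₁ T T₁) in
/-- **GL-U** -/
theorem u : Gls64.UStmt d ty X X₁ nc n₁ T T₁ := by
  intro s s₁ 𝓕 𝓖 h g t ht t₀ h₀ u hu u₀ g₀ φ l l₀ x hx
  refine ⟨fun a b => ?_, fun a => (Met55.iso_dv l.iso hx a).symm⟩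
  have e1 := l.iso.e a x hx
  rw [e_rel g hu g₀, map_sum, e_rel h ht h₀] at e1
  simp only [map_smul, l₀.iso.e _ x hx] at e1
  have e2 := (𝓕.P t₀).bg.F.P_ker (φ x) (fun b => (∑ c, 𝓕.S t (φ x) a c * 𝓕.Si t₀ (φ x) c b) -
    ∑ c, 𝓖.S u x a c * 𝓖.Si u₀ x c b) (by
      simp only [sub_smul, Finset.sum_sub_distrib, e1, sub_self]) b
  have hP : (𝓕.P t₀).bg.F.P = (𝓕.P t₀).bg.B.P := (h.ok t₀ h₀).bg.G.P
  simp only [mul_sub, Finset.sum_sub_distrib, hP] at e2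
  rw [← SSi_P h h₀, ← SSi_P g g₀, ← h.B t₀ h₀, ← g.B u₀ g₀, ← sub_eq_zero, ← e2]
  simp only [l₀.P _ _ x hx]

section row
variable (σ : Cel s nc nr T) (k : ℕ)

/-- the component `a` in the frame at `t` -/
def cS (a : Option κ) (t : T) (x : X.M) : Fm (Option κ) ℝ →L[ℝ] ℝ :=
  ∑ b, σ.S t x a b • PiLp.proj 2 (fun _ : Option κ => ℝ) b

/-- the divergence -/
def dvH (t : T) : s.bg.F.H (k + 1) s.bg.p1 →L[ℝ] s.bg.F.H k (triv X.M ℝ) :=
  ∑ a, ((∑ c, smulH s.bg.F.toPre k _ (fun x => σ.S t x a c) ∘L DH s.bg.F.toPre k _ c) +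
    smulH s.bg.F.toPre k _ ((σ.P t).bg.F.dv a) ∘L s.bg.F.incl (k + 1) k _) ∘L
      s.bg.F.mulH (k + 1) _ _ (cS σ a t)

/-- the pairing -/
def prH (ψ : s.bg.F.H (k + 1) s.bg.pp) : s.bg.F.H (k + 1) s.bg.pp →L[ℝ] s.bg.F.H k (triv X.M ℝ) :=
  s.bg.F.incl (k + 1) k _ ∘L (s.bg.F.mulH (k + 1) _ _
    (fun x => (innerSL ℝ ∘L s.bg.m.J) ((s.base σ.β).Φ x)) +
    s.bg.F.bilH (k + 1) (k + 1) _ _ _ (k + 1) (fun _ => innerSL ℝ ∘L s.bg.m.J) ψ)

/-- the gauge row -/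
def Γ (v : σ.C k) : σ.C k →L[ℝ] s.bg.F.H k (triv X.M ℝ) :=
  (2 : ℝ) • (dvH σ k v.2.2 ∘L ContinuousLinearMap.fst ℝ _ _) + s.bg.w •
    (prH σ k v.2.1 ∘L ContinuousLinearMap.fst ℝ _ _ ∘L ContinuousLinearMap.snd ℝ _ _)

variable {σ k} (h : σ.toFam.OK)
include h

theorem sb_cS (a : Option κ) : SB s.bg.F.toPre σ.Q (cS σ a) :=
  SB.sum fun b => (h.sS a b).smul (SB.fixed (Cb_const _))

theorem sm_dvH : ContDiffOn ℝ ∞ (dvH σ k) σ.Q :=
  ContDiffOn.sum fun a _ => ((ContDiffOn.sum fun c _ =>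
    ((h.sS a c).smulH (Cb_const _) fun _ _ => rfl).clm_comp contDiffOn_const).add
    (((h.sdv a).smulH (Cb_const _) fun _ _ => rfl).clm_comp contDiffOn_const)).clm_comp
    ((sb_cS h a).mulH (Cb_const _) (fun _ _ => rfl) fun _ _ => Maps.triv _)

theorem val_dvH (hk : 4 ≤ k) {t : T} (ht : t ∈ σ.Q) (α : s.bg.F.H (k + 1) s.bg.p1) (x : X.M) :
    s.bg.F.val k _ (dvH σ k t α) x = ∑ a, ((σ.P t).bg.F.D a
      (fun y => ∑ b, σ.S t y a b * s.bg.F.val _ _ α y b) x +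
      (σ.P t).bg.F.dv a x * ∑ b, σ.S t x a b * s.bg.F.val _ _ α x b) := by
  have hS := Sup.of_tame h.site.bg.tame.choose_spec
  rw [dvH, _root_.sum_apply, val_sum]
  refine Finset.sum_congr rfl fun a _ => ?_
  have e : s.bg.F.val (k + 1) _ (s.bg.F.mulH (k + 1) _ (triv X.M ℝ) (cS σ a t) α) =
      fun y => ∑ b, σ.S t y a b * s.bg.F.val _ _ α y b := funext fun y => by
    rw [val_mulH hS (by omega) ((sb_cS h a).cb t ht) (Maps.triv _)]
    simp [cS, -Fintype.sum_option]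
  rw [ContinuousLinearMap.comp_apply, _root_.add_apply, val_add, Pi.add_apply, _root_.sum_apply,
    val_sum, ContinuousLinearMap.comp_apply, val_smulH hS hk ((h.sdv a).cb t ht),
    val_incl hS hk k.le_succ, e, (h.mix t ht).D]
  refine congrArg (· + _) (Finset.sum_congr rfl fun c _ => ?_)
  rw [ContinuousLinearMap.comp_apply, val_smulH hS hk ((h.sS a c).cb t ht), ← (val_DH hS hk _).2, e]

theorem val_prH (hβ : s.Cr σ.β) (hk : 6 ≤ k) (ψ φ : s.bg.F.H (k + 1) s.bg.pp) (x : X.M) :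
    s.bg.F.val k _ (prH σ k ψ φ) x =
      ⟪s.bg.m.J ((s.base σ.β).Φ x + s.bg.F.val _ _ ψ x), s.bg.F.val _ _ φ x⟫_ℝ := by
  have hS := Sup.of_tame h.site.bg.tame.choose_spec
  rw [prH, ContinuousLinearMap.comp_apply, val_incl hS (by omega) k.le_succ, _root_.add_apply,
    val_add, Pi.add_apply, val_mulH hS (by omega) (Cb_clm _ (cb_base_Φ hβ)) (Maps.triv _),
    val_bilH hS (Lev.self (by omega)) (by omega) (Cb_const _) (Maps₂.triv _), map_add,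
    inner_add_left]
  rfl

theorem sm_Γ : ContDiffOn ℝ ∞ (Γ σ k) (σ.U k) := by
  refine ((((sm_dvH h).comp (contDiff_snd.comp contDiff_snd).contDiffOn fun _ hv => hv).clm_comp
    contDiffOn_const).const_smul _).add (ContDiff.contDiffOn (ContDiff.const_smul _
      (ContDiff.clm_comp (contDiff_const.clm_comp (contDiff_const.add ?_)) contDiff_const)))
  exact (ContinuousLinearMap.contDiff _).comp (contDiff_fst.comp contDiff_snd)

theorem val_Γ (hβ : s.Cr σ.β) (hk : 6 ≤ k) {v₀ : σ.C k} (hv : v₀ ∈ σ.U k) (v : σ.C k) :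
    s.bg.F.val k _ (Γ σ k v₀ v) = σ.gro v₀.2.2 ⟨0, (s.base σ.β).Φ + s.bg.F.val _ _ v₀.2.1⟩
      (s.bg.F.val _ _ v.1) (s.bg.F.val _ _ v.2.1) := funext fun x => by
  rw [Γ, _root_.add_apply, val_add, _root_.smul_apply, _root_.smul_apply, val_smul, val_smul]
  exact congrArg₂ (fun a b => 2 * a + s.bg.w * b) (val_dvH h (by omega) hv v.1 x)
    (val_prH h hβ hk v₀.2.1 v.2.1 x)

end row

variable (d ty X nc nr T) in
/-- **GL-ROW** -/
theorem row : Gls64.RowStmt d ty X nc nr T := fun _ σ h k hk =>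
  ⟨Γ σ k, sm_Γ h.toOK, fun _ hv => val_Γ h.toOK (fun i b hb => (h.gd i b hb).crit) (by omega) hv⟩

end Crest.Agent.X212.Gr93
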