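import Crest.Agent.X212.Gr93.Row
import Crest.Agent.X212.Gls64.Mod
import Crest.Agent.X212.Pb50.Rep

/-!
# Row 212, GL-LOC (helper93): the linearisation is local
-/

set_option autoImplicit false
set_option linter.unusedSectionVars false
noncomputable section
open scoped Manifold ContDiff Topology InnerProductSpace
open MeasureTheory Set Function Filter

namespace Crest.Agent.X212.Gr93
open An An.Pre Sob92 Prm93 Gls64 Sw Pb50
open M (Mf)
open Mod61 (Hs ofV val_ofV ofV_eq)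

variable {κ lam ν : Type} [Fintype κ] [Fintype lam] [Fintype ν] [DecidableEq ν]
  {d : Dt κ lam ν} {N : Type} [Fintype N] {ty : N → d.𝓔} {X X₁ : Mf 4} {nc nr n₁ r₁ m : ℕ}
  {T T₁ : Type} [NormedAddCommGroup T] [NormedSpace ℝ T] [FiniteDimensional ℝ T]
  [NormedAddCommGroup T₁] [NormedSpace ℝ T₁] [FiniteDimensional ℝ T₁]
  {s : Pz X 0 fun i => d.e (ty i)} {s₁ : Pz X₁ 0 fun i => d.e (ty i)}
  {σ : Cel s nc nr T} {σ₁ : Cel s₁ n₁ r₁ T₁} {k : ℕ} {q : d.W →₀ ℝ} {J : Finset d.W}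

variable (s k T₁) in
/-- smooth elements -/
def Smo : Set (s.bg.F.H (k + 1) s.bg.p1 × s.bg.F.H (k + 1) s.bg.pp × T₁) :=
  {v | s.bg.F.val _ _ v.1 ∈ Hs s.bg.F.toPre s.bg.p1 ∧ s.bg.F.val _ _ v.2.1 ∈ Hs s.bg.F.toPre s.bg.pp}

theorem dense_smo (h : s.OK) (hk : 3 ≤ k) : Dense (Smo T₁ s k) := by
  have hS := Sup.of_tame h.bg.tame.choose_spec
  have k4 : 4 ≤ k + 1 := by omega
  refine ((Mod61.dense_ofV hS k4).prod ((Mod61.dense_ofV hS k4).prod dense_univ)).mono ?_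
  rintro ⟨_, _, _⟩ ⟨⟨α, hα, rfl⟩, ⟨φ, hφ, rfl⟩, -⟩
  exact ⟨(val_ofV hα k4).symm ▸ hα, (val_ofV hφ k4).symm ▸ hφ⟩

/-- equality on an open set from the equality at smooth elements -/
theorem eqOn_smo {Z : Type} [TopologicalSpace Z] [T2Space Z] (h : s.OK) (hk : 3 ≤ k)
    {O : Set (s.bg.F.H (k + 1) s.bg.p1 × s.bg.F.H (k + 1) s.bg.pp × T₁)} (hO : IsOpen O)
    {f g : _ → Z} (hf : ContinuousOn f O) (hg : ContinuousOn g O)
    (e : ∀ v ∈ O, v ∈ Smo T₁ s k → f v = g v) : EqOn f g O :=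
  EqOn.of_subset_closure (s := O ∩ Smo T₁ s k) (fun v hv => e v hv.1 hv.2) hf hg inter_subset_left
    ((dense_smo h hk).open_subset_closure_inter hO)

theorem hs_smul {V : Type} [NormedAddCommGroup V] [InnerProductSpace ℝ V] [CompleteSpace V]
    {F : Fr X.I X.M (Option κ)} {S : ℝ} (hS : Sup F.toPre S) {p : X.M → V →L[ℝ] V} {f : X.M → ℝ}
    (hf : F.Cb f) {u : X.M → V} (hu : u ∈ Hs F.toPre p) : (fun x => f x • u x) ∈ Hs F.toPre p :=
  Mod61.Hs_mul hS (Cb_smul hf (Cb_const (.id ℝ V))) (fun _ _ e => by simp [e]) hu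

section pt
variable (h : σ.OK) (hk : 3 ≤ k)
include h hk

theorem pt_add (c : σ.Pnt) {v : σ.C k} (hv : v ∈ Smo T s k) (hU : σ.pt k c + v ∈ σ.U k) :
    ∃ y, σ.pt k y = σ.pt k c + v := by
  have hS := Sup.of_tame h.site.bg.tame.choose_spec
  have b := cr_of_gd h.gd
  obtain ⟨y, hy⟩ := exists_pt h.toOK b hU (add_mem (hs_a h.toOK b c) hv.1)
    (add_mem (hs_Φ h.toOK b c) hv.2)
  refine ⟨y, (hy k).trans (Prod.ext (ofV_eq hS (by omega) ?_)
    (Prod.ext (ofV_eq hS (by omega) ?_) rfl))⟩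
  · rw [Prod.fst_add, val_add, val_a h.toOK b hk]
  · rw [Prod.snd_add, Prod.fst_add, val_add, val_Φ h.toOK b hk]

theorem val_sub_pt (c y : σ.Pnt) :
    s.bg.F.val _ _ (σ.pt k y - σ.pt k c).1 = σ.al y.1.1 y.1.2 - σ.al c.1.1 c.1.2 ∧
      s.bg.F.val _ _ (σ.pt k y - σ.pt k c).2.1 = y.1.2.Φ - c.1.2.Φ := by
  have b := cr_of_gd h.gd
  rw [Prod.fst_sub, Prod.snd_sub, Prod.fst_sub, val_sub, val_sub, val_a h.toOK b hk,
    val_a h.toOK b hk, val_Φ h.toOK b hk, val_Φ h.toOK b hk]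
  exact ⟨funext fun _ => sub_sub_sub_cancel_right _ _ _, sub_sub_sub_cancel_right _ _ _⟩

theorem dk_le {j : ℕ} (hj : j ≤ k + 1) (y c : σ.Pnt) : σ.dk j y c ≤ 3 * ‖σ.pt k y - σ.pt k c‖ :=
  (add_le_add_left (add_le_add (nrm_mono hj _) (nrm_mono hj _)) _).trans
    (dk_le_norm h.toOK (cr_of_gd h.gd) hk y c)

end pt

theorem val_gr (h : σ.OK) (hk : 7 ≤ k) (c y : σ.Pnt) :
    s.bg.F.val k _ (gr σ k (σ.pt k c) (σ.pt k y)) = gR σ c y := by
  obtain ⟨e₁, e₂⟩ := val_sub_pt h (k := k) (by omega) c y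
  rw [gr, (row_gm (row d ty X nc nr T) h hk).2 _ y.2.1, e₁, e₂,
    val_Φ h.toOK (cr_of_gd h.gd) (by omega), add_sub_cancel]
  rfl

theorem rv_pt {μ : T → Cfg X.M κ ν → Fin m → ℝ} (hμ : ∀ j, σ.Fn fun t c => μ t c j) (hk : 7 ≤ k)
    (y : σ.Pnt) : rv σ k μ (σ.pt k y) = μ y.1.1 y.1.2 :=
  funext fun j => (repR_rr ((hμ j).1 k hk)).2 y

theorem vl_F (hR : RepStmt d ty X nc nr T) (h : σ.OK) (hk : 7 ≤ k) (y : σ.Pnt) :
    vl σ k (σ.F k q (σ.pt k y)) = eq σ q y.1.1 y.1.2 :=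
  rep_vl (rep_F (hR s σ h k hk).1 (hR s σ h k hk).2.1 q) y

theorem sm_Φ (hR : RepStmt d ty X nc nr T) (h : σ.OK) (hk : 7 ≤ k)
    {μ : T → Cfg X.M κ ν → Fin m → ℝ} (hμ : ∀ j, σ.Fn fun t c => μ t c j) (b : σ.C k) :
    ContDiffOn ℝ ∞ (Φ σ k q μ b) (σ.U k) :=
  (rep_F (hR s σ h k hk).1 (hR s σ h k hk).2.1 q).1.prodMk (ContDiffOn.prodMk
    (((row_gm (row d ty X nc nr T) h hk).1.comp (contDiff_const.prodMk (contDiff_const.prodMk
      (contDiff_snd.comp contDiff_snd))).contDiffOn fun _ hv => hv).clm_apply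
      (contDiff_id.sub contDiff_const).contDiffOn)
    (contDiffOn_pi.2 fun j => (repR_rr ((hμ j).1 k hk)).1))

theorem fn_zero (j : Fin 0) : σ.Fn fun t c => (0 : T → Cfg X.M κ ν → Fin 0 → ℝ) t c j := j.elim0

theorem eq_F {t : T} {t₁ : T₁} {c : Cfg X.M κ ν} {c₁ : Cfg X₁.M κ ν} {y : X.M} {x : X₁.M}
    (h : EqF (σ.P t) (σ₁.P t₁) J c c₁ y x) (hq : q.support ⊆ J) :
    (eq σ q t c).1 y = (eq σ₁ q t₁ c₁).1 x ∧ (eq σ q t c).2.1 y = (eq σ₁ q t₁ c₁).2.1 x :=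
  ⟨h.1, by
    simp only [eq, Pc.pt, Pi.sub_apply, sub_add_eq_sub_sub, h.2.1]
    exact congrArg _ (Finsupp.sum_congr fun w hw => by rw [h.2.2 w (hq hw)])⟩

theorem eq_S {t : T} {t₁ : T₁} {c : Cfg X.M κ ν} {c₁ : Cfg X₁.M κ ν} {e : Fin n₁ → Fin nc}
    (h : EqS (σ.P t) (σ₁.P t₁) J e c c₁) (hq : q.support ⊆ J) (j : Fin n₁) :
    (eq σ q t c).2.2.1 (e j) = (eq σ₁ q t₁ c₁).2.2.1 j :=
  by
    simp only [eq, Pc.pt, (h j).1]
    exact congrArg _ (Finsupp.sum_congr fun w hw => by rw [(h j).2 w (hq hw)])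

theorem gR_zero {c y : σ.Pnt} {p : X.M} (h : σ.al y.1.1 y.1.2 =ᶠ[𝓝 p] σ.al c.1.1 c.1.2)
    (h' : y.1.2.Φ p = c.1.2.Φ p) : gR σ c y p = 0 := by
  have e : ∀ a, (fun z => ∑ b, σ.S y.1.1 z a b * (σ.al y.1.1 y.1.2 - σ.al c.1.1 c.1.2) z b) =ᶠ[𝓝 p]
      fun _ => 0 := fun a => h.mono fun z hz => by simp [hz]
  have e' := fun a => (dv_congr (I := X.I) (e := (σ.P y.1.1).bg.F.e a) (e a)).trans
    (congrFun (dv_const _) p)
  have e'' : (y.1.2.Φ - c.1.2.Φ) p = 0 := sub_eq_zero.2 h'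
  rw [gR, Fam.gro, e'', inner_zero_right, mul_zero, add_zero,
    Finset.sum_eq_zero fun a _ => by
      rw [D_def, e', show ∑ b, _ = (0 : ℝ) from (e a).self_of_nhds, mul_zero, add_zero,
        Pi.zero_apply], mul_zero]

section ext
variable {g : X.M → ℝ} {b : ℝ → ℝ} (h : σ.toFam.OK) (hg : Hg s.bg.F.toPre g) (hb : Neck67.Sm b)
  (hk : 4 ≤ k)
include h hg hb hk

theorem mY_ext {f f' : σ.Y k} (e : ∀ p, b (g p) ≠ 0 → (vl σ k f).1 p = (vl σ k f').1 p ∧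
    (vl σ k f).2.1 p = (vl σ k f').2.1 p) (e' : b 0 ≠ 0 → f.2.2 = f'.2.2) :
    mY σ k g b f = mY σ k g b f' := by
  have a := fun f p => val_mY (σ := σ) h hg hb hk f p
  refine vl_inj h.site hk (Prod.ext (funext fun p => ?_) (Prod.ext (funext fun p => ?_) ?_))
  · refine (a f p).1.trans (.trans ?_ (a f' p).1.symm)
    by_cases z : b (g p) = 0
    · rw [z, zero_smul, zero_smul]
    · exact congrArg _ (e p z).1
  · refine (a f p).2.1.trans (.trans ?_ (a f' p).2.1.symm)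
    by_cases z : b (g p) = 0
    · rw [z, zero_smul, zero_smul]
    · exact congrArg _ (e p z).2
  · change b 0 • f.2.2 = b 0 • f'.2.2
    by_cases z : b 0 = 0
    · rw [z, zero_smul, zero_smul]
    · rw [e' z]

theorem mH_ext {f f' : Hr σ k} (e : ∀ p, b (g p) ≠ 0 → s.bg.F.val _ _ f p = s.bg.F.val _ _ f' p) :
    mH σ k g b f = mH σ k g b f' := by
  refine val_injective (Sup.of_tame h.site.bg.tame.choose_spec) hk (funext fun p => ?_)
  rw [val_mH h hg hb hk, val_mH h hg hb hk]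
  by_cases z : b (g p) = 0
  · rw [z, zero_smul, zero_smul]
  · rw [e p z]

theorem mZ_ext {f f' : Z σ k m} {u u'} (v : vl σ k f.1 = u) (v' : vl σ k f'.1 = u')
    (e : ∀ p, b (g p) ≠ 0 → (u.1 p = u'.1 p ∧ u.2.1 p = u'.2.1 p) ∧
      s.bg.F.val _ _ f.2.1 p = s.bg.F.val _ _ f'.2.1 p)
    (e' : b 0 ≠ 0 → u.2.2 = u'.2.2 ∧ f.2.2 = f'.2.2) : mZ σ k g b m f = mZ σ k g b m f' := by
  subst v v'
  refine Prod.ext (mY_ext h hg hb hk (fun p hp => (e p hp).1) fun z => (e' z).1)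
    (Prod.ext (mH_ext h hg hb hk fun p hp => (e p hp).2) ?_)
  change b 0 • f.2.2 = b 0 • f'.2.2
  by_cases z : b 0 = 0
  · rw [z, zero_smul, zero_smul]
  · rw [(e' z).2]

end ext

variable (d ty X nc nr T) in
/-- **GL-LOC** -/
theorem loc (hR : RepStmt d ty X nc nr T) : Gls64.LocStmt d ty X nc nr T := by
  intro s σ h k hk g J a₀ η m μ x q h0 hη F hq hμ f₁ f₂ a ha b c hb hc H v
  have o := h.toOK
  have hS := Sup.of_tame h.site.bg.tame.choose_spec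
  have hg := F.hg
  have k3 : 3 ≤ k := by omega
  have U := isOpen_U (k := k) o
  have sΦ := sm_Φ (q := q) hR h hk hμ (σ.pt k x)
  let A : σ.C k → σ.C k := fun w => σ.pt k x + mC σ k g c w
  have cA : Continuous A := continuous_const.add (mC σ k g c).continuous
  let O : Set (σ.C k) := A ⁻¹' σ.U k ∩ {w | ‖mC σ k g c w‖ < η / 3}
  have hO : IsOpen O := (U.preimage cA).inter (isOpen_lt (by fun_prop) continuous_const)
  have A0 : A 0 = σ.pt k x := by simp only [A, map_zero, add_zero]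
  have O0 : (0 : σ.C k) ∈ O := ⟨by rw [mem_preimage, A0]; exact x.2.1, by
    rw [mem_ofPred, map_zero, norm_zero]; positivity⟩
  have key : EqOn (fun w => mZ σ k g b m (Φ σ k q μ (σ.pt k x) (A w)))
      (fun _ => mZ σ k g b m (Φ σ k q μ (σ.pt k x) (σ.pt k x))) O := by
    refine eqOn_smo h.site k3 hO ((mZ σ k g b m).continuous.comp_continuousOn
      (sΦ.continuousOn.comp cA.continuousOn fun _ hw => hw.1)) continuousOn_const fun w hw sw => ?_
    have vm := val_mC o hg hc k3 w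
    obtain ⟨y, hy⟩ := pt_add h k3 x (v := mC σ k g c w)
      ⟨funext (fun p => (vm p).1) ▸ hs_smul hS (hg.Cb hc) sw.1,
        funext (fun p => (vm p).2.1) ▸ hs_smul hS (hg.Cb hc) sw.2⟩ hw.1
    obtain ⟨e₁, e₂⟩ := val_sub_pt h k3 x y
    have d₁ : σ.dk 5 y x ≤ η := (dk_le h k3 (by omega) y x).trans (by
      rw [hy, add_sub_cancel_left]; linarith [show ‖mC σ k g c w‖ < η / 3 from hw.2])
    have d₂ : σ.dk 5 x x ≤ η := (dk_le h k3 (by omega) x x).trans (by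
      rw [sub_self, norm_zero, mul_zero]; exact hη.le)
    have e₃ : y.1.1 = x.1.1 + c 0 • w.2.2 := congrArg (·.2.2) hy
    rw [hy, add_sub_cancel_left] at e₁ e₂
    have z : ∀ p, c (g p) = 0 → σ.al y.1.1 y.1.2 p = σ.al x.1.1 x.1.2 p ∧ y.1.2.Φ p = x.1.2.Φ p :=
      fun p hp => ⟨sub_eq_zero.1 ((congrFun e₁ p).symm.trans ((vm p).1.trans (by rw [hp, zero_smul]))),
        sub_eq_zero.1 ((congrFun e₂ p).symm.trans ((vm p).2.1.trans (by rw [hp, zero_smul])))⟩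
    have sa := fun (y : σ.Pnt) => S_al o y.2.1 ((as_fam o y.2.1 _ _).1 y.2.2).2
    have x0 : ∀ p, gR σ x x p = 0 := fun p => gR_zero .rfl rfl
    have vy := vl_F (q := q) hR h hk y
    have vx := vl_F (q := q) hR h hk x
    simp only [A, ← hy]
    have G : ∀ p, (∀ᶠ r in 𝓝 p, c (g r) = 0) → s.bg.F.val _ _ (gr σ k (σ.pt k x) (σ.pt k y)) p =
        s.bg.F.val _ _ (gr σ k (σ.pt k x) (σ.pt k x)) p := fun p hp => by
      rw [val_gr h hk, val_gr h hk, x0, gR_zero (hp.mono fun r hr => (z r hr).1)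
        (z p hp.self_of_nhds).2]
    have cg := hg.sm.continuous
    rcases H with ⟨b0, c0⟩ | ⟨b0, c0⟩
    · rw [c0 0 (by linarith), zero_smul, add_zero] at e₃
      have lt : ∀ p, b (g p) ≠ 0 → g p < a := fun p hp => lt_of_not_ge fun k => hp (b0 _ k)
      have ag : ∀ a' ≤ a + 3, Ag id {p | g p < a'} y.1.2 x.1.2 := fun a' h' p (hp : g p < a') =>
        have := z p (c0 _ (by linarith))
        ⟨fun i => (sa y i p).symm.trans (.trans (by rw [this.1, e₃]) (sa x i p)), this.2⟩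
      have ay := e₃ ▸ y.2.2.1
      refine mZ_ext o hg hb (by omega) vy vx (fun p hp => ⟨?_, G p ?_⟩) fun _ =>
        ⟨Prod.ext (funext fun j => ?_) (f₁ y x e₃ d₁ d₂ (ag _ (by linarith))), ?_⟩
      · rw [e₃]
        exact eq_F (F.lft a (by linarith) _ x.2.1 _ _ ay x.2.2.1 (ag _ (by linarith)) p (lt p hp)) hq
      · exact (cg.continuousAt.eventually_lt continuousAt_const
          (by linarith [lt p hp] : g p < a + 3)).mono fun r hr => c0 _ hr.le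
      · rw [e₃]
        exact eq_S (F.cut _ x.2.1 _ _ ay x.2.2.1 (ag _ (by linarith))) hq j
      · exact (rv_pt hμ hk y).trans ((f₂ y x e₃ d₁ d₂ (ag _ (by linarith))).trans
          (rv_pt hμ hk x).symm)
    · have lt : ∀ p, b (g p) ≠ 0 → a < g p := fun p hp => lt_of_not_ge fun k => hp (b0 _ k)
      have ag : Ag id {p | a - 2 < g p} y.1.2 x.1.2 := fun p (hp : a - 2 < g p) => by
        have := z p (c0 _ (by linarith))
        refine ⟨fun i => (sa y i p).symm.trans (.trans ?_ (sa x i p)), this.2⟩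
        simp only [this.1, fun a b => ((F.fr _ y.2.1 p (by linarith)).1 a b).1,
          fun a b => ((F.fr _ x.2.1 p (by linarith)).1 a b).1]
      exact mZ_ext o hg hb (by omega) vy vx (fun p hp => ⟨eq_F (F.rgt a (by linarith) _ y.2.1 _
        x.2.1 _ _ y.2.2.1 x.2.2.1 ag p (lt p hp)) hq, G p ((continuousAt_const.eventually_lt
          cg.continuousAt (by linarith [lt p hp] : a - 3 < g p)).mono fun r hr => c0 _ hr.le)⟩)
        fun k => (k (b0 0 (by linarith))).elim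
  have d1 : HasFDerivAt (Φ σ k q μ (σ.pt k x)) (fderiv ℝ (Φ σ k q μ (σ.pt k x)) (σ.pt k x))
      (A 0) := by
    rw [A0]
    exact ((sΦ.contDiffAt (U.mem_nhds (x := σ.pt k x) x.2.1)).differentiableAt
      (by simp)).hasFDerivAt
  exact DFunLike.congr_fun (((mZ σ k g b m).hasFDerivAt.comp 0 (d1.comp 0
    ((mC σ k g c).hasFDerivAt.const_add _))).unique ((hasFDerivAt_const _ _).congr_of_eventuallyEq
      (key.eventuallyEq_of_mem (hO.mem_nhds O0)))) v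

end Crest.Agent.X212.Gr93
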