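import Crest.Agent.X212.Gr93.Tr
import Crest.Agent.X212.Gr93.Row
import Crest.Agent.X212.Map77.Sym

/-!
# Row 212, GL-TRF, GL-TRE (helper93)
-/

set_option autoImplicit false
set_option linter.unusedSectionVars false
noncomputable section
open scoped Manifold ContDiff Topology InnerProductSpace
open MeasureTheory Set Function Filter

namespace Crest.Agent.X212.Gr93
open An An.Pre Sob92 Prm93 Gls64 Sw Pb50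
open M (Mf)
open Mod61 (Hs ofV val_ofV ofV_eq)
open ContinuousLinearMap (fst snd inl inr)

section abs
variable {H H₁ H₂ K K₁ K₂ : Type} [NormedAddCommGroup H] [NormedSpace ℝ H] [NormedAddCommGroup H₁]
  [NormedSpace ℝ H₁] [NormedAddCommGroup H₂] [NormedSpace ℝ H₂] [NormedAddCommGroup K]
  [NormedSpace ℝ K] [NormedAddCommGroup K₁] [NormedSpace ℝ K₁] [NormedAddCommGroup K₂]
  [NormedSpace ℝ K₂] {m₁ : H₁ →L[ℝ] H₁} {m₂ : H₂ →L[ℝ] H₂} {P₁ : H →L[ℝ] H₁} {P₂ : H →L[ℝ] H₂}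
  {Q₁ : H₁ →L[ℝ] H} {Q₂ : H₂ →L[ℝ] H} {C C' : ℝ}

theorem Pr.prod {m₁' : K₁ →L[ℝ] K₁} {m₂' : K₂ →L[ℝ] K₂} {P₁' : K →L[ℝ] K₁} {P₂' : K →L[ℝ] K₂}
    {Q₁' : K₁ →L[ℝ] K} {Q₂' : K₂ →L[ℝ] K} (h : Pr m₁ m₂ P₁ P₂ Q₁ Q₂ C)
    (h' : Pr m₁' m₂' P₁' P₂' Q₁' Q₂' C') : Pr (m₁.prodMap m₁') (m₂.prodMap m₂') (P₁.prodMap P₁')
      (P₂.prodMap P₂') (Q₁.prodMap Q₁') (Q₂.prodMap Q₂') (max C C') := by
  have a : ∀ {x y r : ℝ}, 0 ≤ r → x ≤ C * r → y ≤ C' * r → max x y ≤ max C C' * r :=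
    fun hr hx hy => max_le (hx.trans (mul_le_mul_of_nonneg_right (le_max_left _ _) hr))
      (hy.trans (mul_le_mul_of_nonneg_right (le_max_right _ _) hr))
  exact ⟨fun u => Prod.ext (h.inv _) (h'.inv _), fun v w r hv hw => a ((norm_nonneg v).trans hv)
      (h.b₁ _ _ r ((norm_fst_le v).trans hv) ((norm_fst_le w).trans hw))
      (h'.b₁ _ _ r ((norm_snd_le v).trans hv) ((norm_snd_le w).trans hw)),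
    fun v w r hv hw => a ((norm_nonneg v).trans hv)
      (h.b₂ _ _ r ((norm_fst_le v).trans hv) ((norm_fst_le w).trans hw))
      (h'.b₂ _ _ r ((norm_snd_le v).trans hv) ((norm_snd_le w).trans hw))⟩

theorem Pr.fin (e : H ≃L[ℝ] H₁ × H₂) {c : ℝ} (hc : c = 1) : Pr (c • .id ℝ H₁) (c • .id ℝ H₂)
    (fst ℝ H₁ H₂ ∘L (e : H →L[ℝ] H₁ × H₂)) (snd ℝ H₁ H₂ ∘L (e : H →L[ℝ] H₁ × H₂))
    ((e.symm : H₁ × H₂ →L[ℝ] H) ∘L inl ℝ H₁ H₂) ((e.symm : H₁ × H₂ →L[ℝ] H) ∘L inr ℝ H₁ H₂) 1 := by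
  have a : ∀ v w, ((e.symm : H₁ × H₂ →L[ℝ] H) ∘L inl ℝ H₁ H₂) v +
      ((e.symm : H₁ × H₂ →L[ℝ] H) ∘L inr ℝ H₁ H₂) w = e.symm (v, w) := fun v w => by
    simp [← map_add]
  subst hc
  exact ⟨fun u => by rw [a]; simp, fun v w r hv _ => by rw [a]; simpa using hv,
    fun v w r _ hw => by rw [a]; simpa using hw⟩

theorem Pr.conj (h : Pr m₁ m₂ P₁ P₂ Q₁ Q₂ C) (E : K →L[ℝ] H) (E' : H →L[ℝ] K)
    (h1 : ∀ u, E' (E u) = u) (h2 : ∀ u, E (E' u) = u) :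
    Pr m₁ m₂ (P₁ ∘L E) (P₂ ∘L E) (E' ∘L Q₁) (E' ∘L Q₂) C := by
  refine ⟨fun u => ?_, fun v w r hv hw => ?_, fun v w r hv hw => ?_⟩ <;>
    simp only [ContinuousLinearMap.comp_apply, ← map_add, h2]
  exacts [by rw [h.inv, h1], h.b₁ v w r hv hw, h.b₂ v w r hv hw]

theorem Pr.bd (h : Pr m₁ m₂ P₁ P₂ Q₁ Q₂ C) : ‖P₁.prod P₂ ∘L Q₁.coprod Q₂‖ ≤ |C| :=
  ContinuousLinearMap.opNorm_le_bound _ (abs_nonneg C) fun v =>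
    (max_le (h.b₁ _ _ _ (norm_fst_le v) (norm_snd_le v))
      (h.b₂ _ _ _ (norm_fst_le v) (norm_snd_le v))).trans
      (mul_le_mul_of_nonneg_right (le_abs_self C) (norm_nonneg v))

variable (H H₁ H₂ K K₁ K₂) in
/-- rearrangement -/
def rA : (H × H₁ × H₂ × K) × K₁ × K₂ →L[ℝ] (H × H₁ × H₂ × K × K₂) × K₁ :=
  ((fst ℝ _ _ ∘L fst ℝ _ _).prod ((fst ℝ _ _ ∘L snd ℝ _ _ ∘L fst ℝ _ _).prod
    ((fst ℝ _ _ ∘L snd ℝ _ _ ∘L snd ℝ _ _ ∘L fst ℝ _ _).prod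
      ((snd ℝ _ _ ∘L snd ℝ _ _ ∘L snd ℝ _ _ ∘L fst ℝ _ _).prod (snd ℝ _ _ ∘L snd ℝ _ _))))).prod
    (fst ℝ _ _ ∘L snd ℝ _ _)

variable (H H₁ H₂ K K₁ K₂) in
/-- its inverse -/
def rB : (H × H₁ × H₂ × K × K₂) × K₁ →L[ℝ] (H × H₁ × H₂ × K) × K₁ × K₂ :=
  ((fst ℝ _ _ ∘L fst ℝ _ _).prod ((fst ℝ _ _ ∘L snd ℝ _ _ ∘L fst ℝ _ _).prod
    ((fst ℝ _ _ ∘L snd ℝ _ _ ∘L snd ℝ _ _ ∘L fst ℝ _ _).prod
      (fst ℝ _ _ ∘L snd ℝ _ _ ∘L snd ℝ _ _ ∘L snd ℝ _ _ ∘L fst ℝ _ _)))).prod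
    ((snd ℝ _ _).prod (snd ℝ _ _ ∘L snd ℝ _ _ ∘L snd ℝ _ _ ∘L snd ℝ _ _ ∘L fst ℝ _ _))

end abs

variable {κ lam ν : Type} [Fintype κ] [Fintype lam] [Fintype ν] [DecidableEq ν]
  {d : Dt κ lam ν} {N : Type} [Fintype N] {ty : N → d.𝓔} {X X₁ X₂ : Mf 4}
  {nc nr n₁ r₁ n₂ r₂ m : ℕ}
  {T T₁ T₂ : Type} [NormedAddCommGroup T] [NormedSpace ℝ T] [FiniteDimensional ℝ T]
  [NormedAddCommGroup T₁] [NormedSpace ℝ T₁] [FiniteDimensional ℝ T₁]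
  [NormedAddCommGroup T₂] [NormedSpace ℝ T₂] [FiniteDimensional ℝ T₂]
  {s : Pz X 0 fun i => d.e (ty i)} {s₁ : Pz X₁ 0 fun i => d.e (ty i)}
  {s₂ : Pz X₂ 0 fun i => d.e (ty i)} {σ : Cel s nc nr T} {σ₁ : Cel s₁ n₁ r₁ T₁}
  {σ₂ : Cel s₂ n₂ r₂ T₂} {k : ℕ}

/-- the bundles of the sites correspond -/
theorem lit_site {𝓕 : Fam s nc T} {𝓖 : Fam s₁ n₁ T₁} (h : 𝓕.OK) (g : 𝓖.OK) {t : T} (ht : t ∈ 𝓕.Q)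
    {u : T₁} (hu : u ∈ 𝓖.Q) {φ : OpenPartialHomeomorph X₁.M X.M}
    (l : (𝓖.P u).bg.Lit (𝓕.P t).bg φ) {x : X₁.M} (hx : x ∈ φ.source) :
    (∀ i j, s.bg.B.P i j (φ x) = s₁.bg.B.P i j x) ∧ s.bg.p1 (φ x) = s₁.bg.p1 x ∧
      s.bg.pp (φ x) = s₁.bg.pp x ∧ s.bg.pm (φ x) = s₁.bg.pm x ∧ s.bg.p2 (φ x) = s₁.bg.p2 x := by
  have a := fun i j => l.P i j x hx
  have b := fun i j k n => l.o i j k n x hx
  have c := l.p x hx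
  have e := fun i => l.ρ i x hx
  rw [h.B t ht, g.B u hu] at a b
  rw [h.m t ht, g.m u hu] at c e
  refine ⟨a, ?_, ?_, ?_, congrArg (idx · _) (funext fun _ => funext fun _ => ?_)⟩ <;>
    simp only [Bg.p1, Bg.pp, Bg.pm, Bg.vol, Base.sd, Base.a2, Base.st, a, b, c, e]

/-- frame components -/
abbrev iS (S : X.M → Option κ → Option κ → ℝ) (x : X.M) : Fm (Option κ) ℝ →L[ℝ] Fm (Option κ) ℝ :=
  idx (S x) (ContinuousLinearMap.id ℝ ℝ)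

theorem iS_apply (S : X.M → Option κ → Option κ → ℝ) (x : X.M) (v : Fm (Option κ) ℝ)
    (a : Option κ) : iS S x v a = ∑ b, S x a b * v b := Map77.idx_apply _ _ _ _

theorem cb_iS {F : Pre X.I X.M (Option κ)} {S : X.M → Option κ → Option κ → ℝ}
    (h : ∀ a b, F.Cb fun x => S x a b) : F.Cb (iS S) := by
  rw [show iS S = _ from funext fun x => (Map77.idx_eq _ _).trans (Map77.tp_eq _)]
  exact Cb_sum _ fun a _ => Cb_comp (Cb_const _) (Cb_sum _ fun b _ => Cb_smul (h a b) (Cb_const _))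

theorem iS_iS {S S' R : X.M → Option κ → Option κ → ℝ} {x : X.M}
    (h : ∀ a b, ∑ c, S x a c * S' x c b = R x a b) (v : Fm (Option κ) ℝ) :
    iS S x (iS S' x v) = iS R x v := by
  rw [Map77.idx_idx, funext₂ h]; rfl

theorem tw_S {𝓕 : Fam s nc T} (h : 𝓕.OK) {t : T} (ht : t ∈ 𝓕.Q) :
    Tw s.bg.F.toPre (𝓕.P t).bg.F.toPre s.bg.p1 (iS (𝓕.S t)) (iS (𝓕.Si t)) :=
  ⟨cmp h ht, cb_iS fun a b => (h.sS a b).cb t ht, cb_iS fun a b => (h.sSi a b).cb t ht,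
    fun x v _ => iS_iS (S := fun x a b => s.bg.B.P a b x) (h.PS t ht x) v,
    fun x v _ => iS_iS (S := fun x a b => s.bg.B.P a b x) (h.PSi t ht x) v,
    fun x v e => (iS_iS (R := fun x a b => s.bg.B.P a b x) (h.SiS t ht x) v).trans e,
    fun x v e => (iS_iS (R := fun x a b => s.bg.B.P a b x) (h.SSi t ht x) v).trans e⟩

variable (σ σ₁ σ₂) in
/-- long necks -/
structure Gd (S : Sp X X₁ X₂ nc n₁ n₂ T T₁ T₂) (δ : ℝ × ℝ) (g : X.M → ℝ) : Prop where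
  Λ : 1 ≤ S.Λ δ
  h₁ : Ht (S.φ₁ δ) S.g₁ g (3 * S.Λ δ + 3)
  h₂ : Ht (S.φ₂ δ) S.g₂ (fun p => 4 * S.Λ δ - g p) (3 * S.Λ δ + 3)
  lit : ∀ t₁ ∈ σ₁.Q, ∀ t₂ ∈ σ₂.Q, S.θ δ (t₁, t₂) ∈ σ.Q ∧
    (σ₁.P t₁).bg.Lit (σ.P (S.θ δ (t₁, t₂))).bg (S.φ₁ δ) ∧
    (σ₂.P t₂).bg.Lit (σ.P (S.θ δ (t₁, t₂))).bg (S.φ₂ δ)

variable {S : Sp X X₁ X₂ nc n₁ n₂ T T₁ T₂}

theorem geo_gd (h : S.Geo σ σ₁ σ₂) :
    (Sm X₁.I S.g₁ ∧ ∀ a, s₁.bg.F.Cb (s₁.bg.F.D a S.g₁)) ∧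
    (Sm X₂.I S.g₂ ∧ ∀ a, s₂.bg.F.Cb (s₂.bg.F.D a S.g₂)) ∧ ∀ᶠ δ in S.lg, ∃ g, Gd σ σ₁ σ₂ S δ g := by
  obtain ⟨_, h1, h2, h3⟩ := (h.mt ∅).exists
  refine ⟨⟨h1.sm, h1.cb⟩, ⟨h2.sm, h2.cb⟩, ?_⟩
  filter_upwards [h.ht, h3, (tendsto_comap.eventually (eventually_ge_atTop 1)).filter_mono
    (inf_le_left : S.lg ≤ _)] with δ ⟨g, a, b⟩ c e
  exact ⟨g, e, a, b, fun t₁ k₁ t₂ k₂ => ⟨(c t₁ k₁ t₂ k₂).1, (c t₁ k₁ t₂ k₂).2.1.lit,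
    (c t₁ k₁ t₂ k₂).2.2.lit⟩⟩

variable (d ty X X₁ X₂ nc nr n₁ r₁ n₂ r₂ T T₁ T₂) in
/-- **GL-TRF** -/
theorem trf : TrfStmt d ty X X₁ X₂ nc nr n₁ r₁ n₂ r₂ T T₁ T₂ := by
  intro s s₁ s₂ σ σ₁ σ₂ S x z _ _ _ h _ k hk m Lr
  obtain ⟨⟨a₁, c₁⟩, ⟨a₂, c₂⟩, ev⟩ := geo_gd h
  have o := h.ok.toOK
  have o₁ := h.ok₁.toOK
  have o₂ := h.ok₂.toOK
  have w₁ := cmp o₁ x.2.1
  have w₂ := cmp o₂ z.2.1
  obtain ⟨A, -, hA⟩ := pair (X := X) a₁ c₁ (.id w₁ s₁.bg.pm) a₂ c₂ (.id w₂ s₂.bg.pm) k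
  obtain ⟨B, -, hB⟩ := pair (X := X) a₁ c₁ (.id w₁ s₁.bg.p2) a₂ c₂ (.id w₂ s₂.bg.p2) k
  obtain ⟨C, -, hC⟩ := pair (X := X) a₁ c₁ (.id w₁ (triv _ ℝ)) a₂ c₂ (.id w₂ (triv _ ℝ)) k
  refine ⟨|max (max A (max B 1)) C|, ev.mono fun δ ⟨g, G⟩ => ?_⟩
  obtain ⟨ht, l₁, l₂⟩ := G.lit _ x.2.1 _ z.2.1
  have w := cmp o ht
  have p₁ := fun y => lit_site o o₁ ht x.2.1 l₁ (x := y)
  have p₂ := fun y => lit_site o o₂ ht z.2.1 l₂ (x := y)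
  have Λ := G.Λ
  have dA₁ : Sd _ _ _ _ _ _ s₁.bg.pm s.bg.pm := ⟨l₁.iso, G.h₁, fun y hy => (p₁ y hy).2.2.2.1⟩
  have dA₂ : Sd _ _ _ _ _ _ s₂.bg.pm s.bg.pm := ⟨l₂.iso, G.h₂, fun y hy => (p₂ y hy).2.2.2.1⟩
  have dB₁ : Sd _ _ _ _ _ _ s₁.bg.p2 s.bg.p2 := ⟨l₁.iso, G.h₁, fun y hy => (p₁ y hy).2.2.2.2⟩
  have dB₂ : Sd _ _ _ _ _ _ s₂.bg.p2 s.bg.p2 := ⟨l₂.iso, G.h₂, fun y hy => (p₂ y hy).2.2.2.2⟩
  have dC₁ : Sd _ _ _ _ _ _ (triv _ ℝ) (triv _ ℝ) := ⟨l₁.iso, G.h₁, fun _ _ => rfl⟩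
  have dC₂ : Sd _ _ _ _ _ _ (triv _ ℝ) (triv _ ℝ) := ⟨l₂.iso, G.h₂, fun _ _ => rfl⟩
  have key := (((hA _ (by linarith) _ _ _ _ _ _ _ g (.id w _) dA₁ dA₂).prod
    ((hB _ (by linarith) _ _ _ _ _ _ _ g (.id w _) dB₁ dB₂).prod (Pr.fin
      ((((LinearEquiv.funCongrLeft ℝ ℂ S.e).trans (LinearEquiv.sumArrowLequivProdArrow _ _ ℝ
        ℂ)).toContinuousLinearEquiv.prodCongr Lr).trans (.prodProdProdComm ℝ _ _ _ _))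
      (c := χ (S.Λ δ) 0) (Neck67.dn_one one_pos (by linarith))))).prod
    (hC _ (by linarith) _ _ _ _ _ _ _ g (.id w _) dC₁ dC₂)).conj (rA _ _ _ _ _ _) (rB _ _ _ _ _ _)
    (fun _ => rfl) fun _ => rfl
  have hS := Sup.of_tame o.site.bg.tame.choose_spec
  have S₁ := Sup.of_tame o₁.site.bg.tame.choose_spec
  have S₂ := Sup.of_tame o₂.site.bg.tame.choose_spec
  have k4 : 4 ≤ k := by omega
  refine ⟨_, _, key.inv, key.bd, fun f p hp => ⟨?_, ?_, ?_⟩, fun f p hp => ⟨?_, ?_, ?_⟩,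
    fun _ _ => rfl, fun _ _ => rfl, fun _ => rfl⟩
  · exact (congrFun (val_P dA₁ a₁ c₁ (.id w _) (.id w₁ _) hS S₁ k4 _) p).trans
      (fP_eq G.h₁ _ (by linarith))
  · exact (congrFun (val_P dB₁ a₁ c₁ (.id w _) (.id w₁ _) hS S₁ k4 _) p).trans
      (fP_eq G.h₁ _ (by linarith))
  · exact (congrFun (val_P dC₁ a₁ c₁ (.id w _) (.id w₁ _) hS S₁ k4 _) p).trans
      (fP_eq G.h₁ _ (by linarith))
  · exact (congrFun (val_P dA₂ a₂ c₂ (.id w _) (.id w₂ _) hS S₂ k4 _) p).trans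
      (fP_eq G.h₂ _ (by linarith))
  · exact (congrFun (val_P dB₂ a₂ c₂ (.id w _) (.id w₂ _) hS S₂ k4 _) p).trans
      (fP_eq G.h₂ _ (by linarith))
  · exact (congrFun (val_P dC₂ a₂ c₂ (.id w _) (.id w₂ _) hS S₂ k4 _) p).trans
      (fP_eq G.h₂ _ (by linarith))

/-- smooth points go to smooth points -/
theorem side (o : σ.OK) (o₁ : σ₁.OK) (hk : 3 ≤ k) {φ : OpenPartialHomeomorph X₁.M X.M}
    {g₁ : X₁.M → ℝ} {g : X.M → ℝ} {a : ℝ} (H : Ht φ g₁ g a) (a₁ : Sm X₁.I g₁)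
    (c₁ : ∀ a, s₁.bg.F.Cb (s₁.bg.F.D a g₁)) {c y : σ.Pnt} {x : σ₁.Pnt} {t₁ : T₁} (h₁ : t₁ ∈ σ₁.Q)
    (l : (σ₁.P x.1.1).bg.Lit (σ.P c.1.1).bg φ) (l' : (σ₁.P t₁).bg.Lit (σ.P y.1.1).bg φ)
    (ag : Ag φ {p | g₁ p < a} c.1.2 x.1.2) : ∃ y₁ : σ₁.Pnt, y₁.1.1 = t₁ ∧
      σ₁.pt k y₁ = σ₁.pt k x + (trP _ (σ.P c.1.1).bg.F.toPre _ (σ₁.P x.1.1).bg.F.toPre φ g a _ _
        (iS (σ.S c.1.1)) _ (iS (σ₁.Si x.1.1)) (σ.pt k y - σ.pt k c).1,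
        trP _ (σ.P c.1.1).bg.F.toPre _ (σ₁.P x.1.1).bg.F.toPre φ g a _ _ (triv _ _) _ (triv _ _)
          (σ.pt k y - σ.pt k c).2.1, t₁ - x.1.1) ∧ Ag φ {p | g₁ p < a - 2} y.1.2 y₁.1.2 := by
  have b : s.Cr σ.β := fun i b hb => (o.gd i b hb).crit
  have b₁ : s₁.Cr σ₁.β := fun i b hb => (o₁.gd i b hb).crit
  have hS := Sup.of_tame o.site.bg.tame.choose_spec
  have S₁ := Sup.of_tame o₁.site.bg.tame.choose_spec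
  have p₁ := fun y => lit_site o.toOK o₁.toOK c.2.1 x.2.1 l (x := y)
  have dA : Sd _ _ _ _ _ _ s₁.bg.p1 s.bg.p1 := ⟨l.iso, H, fun y hy => (p₁ y hy).2.1⟩
  have dB : Sd _ _ _ _ _ _ s₁.bg.pp s.bg.pp := ⟨l.iso, H, fun y hy => (p₁ y hy).2.2.1⟩
  have tA := tw_S o.toOK c.2.1
  have tA₁ := tw_S o₁.toOK x.2.1
  have tB := Tw.id tA.cmp s.bg.pp
  have tB₁ := Tw.id tA₁.cmp s₁.bg.pp
  have k4 : 4 ≤ k + 1 := by omega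
  have hα := add_mem (hs_a o₁.toOK b₁ x)
    (hs_P dA a₁ c₁ tA tA₁ hS S₁ (sub_mem (hs_a o.toOK b y) (hs_a o.toOK b c)))
  have hφ := add_mem (hs_Φ o₁.toOK b₁ x)
    (hs_P dB a₁ c₁ tB tB₁ hS S₁ (sub_mem (hs_Φ o.toOK b y) (hs_Φ o.toOK b c)))
  obtain ⟨y₁, hy⟩ := exists_pt o₁.toOK b₁ h₁ hα hφ
  have e₀ : y₁.1.1 = t₁ := congrArg (·.2.2) (hy k)
  have e₁ := (val_a o₁.toOK b₁ hk y₁).symm.trans ((congrArg (fun v => s₁.bg.F.val _ _ v.1)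
    (hy k)).trans (val_ofV hα k4))
  have e₂ := (val_Φ o₁.toOK b₁ hk y₁).symm.trans ((congrArg (fun v => s₁.bg.F.val _ _ v.2.1)
    (hy k)).trans (val_ofV hφ k4))
  refine ⟨y₁, e₀, (hy k).trans (Prod.ext (ofV_eq S₁ k4 ?_) (Prod.ext (ofV_eq S₁ k4 ?_)
    (add_sub_cancel _ _).symm)), fun p (hp : g₁ p < a - 2) => ?_⟩
  · rw [Prod.fst_add, val_add, val_P dA a₁ c₁ tA tA₁ hS S₁ k4, Prod.fst_sub, val_sub,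
      val_a o₁.toOK b₁ hk, val_a o.toOK b hk, val_a o.toOK b hk]
  · rw [Prod.snd_add, Prod.fst_add, val_add, val_P dB a₁ c₁ tB tB₁ hS S₁ k4, Prod.snd_sub,
      Prod.fst_sub, val_sub, val_Φ o₁.toOK b₁ hk, val_Φ o.toOK b hk, val_Φ o.toOK b hk]
  have hp' : g₁ p < a := by linarith
  have hs := H.src hp'
  obtain ⟨g1, g2⟩ := ag p hp'
  refine ⟨fun i => ?_, ?_⟩
  · let Y : Fm (Option κ) ℝ := WithLp.toLp 2 fun j => y.1.2.a j (φ p)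
    have U := (u d ty X X₁ nc n₁ T T₁ s s₁ _ _ o.toOK o₁.toOK _ c.2.1 _ y.2.1 _ x.2.1 _ h₁ φ l l'
      p hs).1
    have f0 : σ.al y.1.1 y.1.2 (φ p) = iS (σ.Si y.1.1) (φ p) Y :=
      Map77.fm_ext fun j => (iS_apply _ _ Y j).symm
    have f1 : iS (σ.S c.1.1) (φ p) (iS (σ.Si y.1.1) (φ p) Y) =
        iS (σ₁.S x.1.1) p (iS (σ₁.Si t₁) p Y) := by
      rw [Map77.idx_idx, Map77.idx_idx, funext₂ U]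
    have f2 : iS (σ₁.Si x.1.1) p (iS (σ.S c.1.1) (φ p) (σ.al c.1.1 c.1.2 (φ p))) =
        σ₁.al x.1.1 x.1.2 p := Map77.fm_ext fun j => by
      simp only [iS_apply, S_al o.toOK c.2.1 ((as_fam o.toOK c.2.1 _ _).1 c.2.2).2,
        show ∀ a, c.1.2.a a (φ p) = x.1.2.a a p from g1]; rfl
    have f3 := congrFun e₁ p
    rw [Pi.add_apply, fP_eq H _ hp.le, Pi.sub_apply, sub_sub_sub_cancel_right, map_sub, map_sub, f0,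
      f1, f2, tA₁.l _ _ (iS_iS (S := fun x a b => s₁.bg.B.P a b x) (o₁.PSi _ h₁ p) Y), e₀] at f3
    have f4 : σ₁.al t₁ y₁.1.2 p = iS (σ₁.Si t₁) p Y := by
      rw [← sub_eq_zero, ← sub_eq_zero.2 f3]; abel
    rw [← S_al o₁.toOK h₁ ((as_fam o₁.toOK y₁.2.1 _ _).1 y₁.2.2).2, ← iS_apply, f4,
      iS_iS (R := fun x a b => s₁.bg.B.P a b x) (o₁.SSi _ h₁ p), iS_apply,
      ← ((as_fam o.toOK y.2.1 _ _).1 y.2.2).2 i]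
    exact Finset.sum_congr rfl fun j _ => congrArg (· * _) ((p₁ p hs).1 i j)
  · have f3 := congrFun e₂ p
    rw [Pi.add_apply, fP_eq H _ hp.le] at f3
    simp only [Pi.sub_apply, ContinuousLinearMap.id_apply,
      show c.1.2.Φ (φ p) = x.1.2.Φ p from g2] at f3
    rw [← sub_eq_zero, ← neg_eq_zero, ← sub_eq_zero.2 f3]; abel

variable (d ty X X₁ X₂ nc nr n₁ r₁ n₂ r₂ T T₁ T₂) in
/-- **GL-TRE** -/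
theorem tre : TreStmt d ty X X₁ X₂ nc nr n₁ r₁ n₂ r₂ T T₁ T₂ := by
  intro s s₁ s₂ σ σ₁ σ₂ S x z xx zz cc h pre k hk
  obtain ⟨⟨a₁, c₁⟩, ⟨a₂, c₂⟩, ev⟩ := geo_gd h
  have o := h.ok.toOK
  have o₁ := h.ok₁.toOK
  have o₂ := h.ok₂.toOK
  obtain ⟨A, -, hA⟩ := pair (X := X) a₁ c₁ (tw_S o₁ x.2.1) a₂ c₂ (tw_S o₂ z.2.1) (k + 1)
  obtain ⟨B, -, hB⟩ := pair (X := X) a₁ c₁ (.id (cmp o₁ x.2.1) s₁.bg.pp) a₂ c₂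
    (.id (cmp o₂ z.2.1) s₂.bg.pp) (k + 1)
  refine ⟨|max A (max B 1)|, ?_⟩
  filter_upwards [ev, pre.ag] with δ ⟨g, G⟩ ⟨e₁, e₂, e, g₁, g₂⟩
  rw [← e₁, ← e₂] at hA hB
  obtain ⟨ht, l₁, l₂⟩ := G.lit _ (xx δ).2.1 _ (zz δ).2.1
  rw [← e] at ht l₁ l₂
  have p₁ := fun y => lit_site o o₁ ht (xx δ).2.1 l₁ (x := y)
  have p₂ := fun y => lit_site o o₂ ht (zz δ).2.1 l₂ (x := y)
  have Λ := G.Λ
  have key := (hA _ (by linarith) _ _ _ _ _ _ _ g (tw_S o ht) ⟨l₁.iso, G.h₁, fun y hy =>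
    (p₁ y hy).2.1⟩ ⟨l₂.iso, G.h₂, fun y hy => (p₂ y hy).2.1⟩).prod
    ((hB _ (by linarith) _ _ _ _ _ _ _ g (.id (cmp o ht) _) ⟨l₁.iso, G.h₁, fun y hy =>
      (p₁ y hy).2.2.1⟩ ⟨l₂.iso, G.h₂, fun y hy => (p₂ y hy).2.2.1⟩).prod
      (Pr.fin (.refl ℝ (T₁ × T₂)) (c := χ (S.Λ δ) 0) (Neck67.dn_one one_pos (by linarith))))
  refine ⟨_, _, key.inv, key.bd, fun _ => rfl, fun y t₁ k₁ t₂ k₂ hy => ?_⟩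
  obtain ⟨-, m₁, m₂⟩ := G.lit _ k₁ _ k₂
  rw [← hy] at m₁ m₂
  obtain ⟨y₁, b₁, b₂, b₃⟩ := side h.ok h.ok₁ (k := k) (by omega) G.h₁ a₁ c₁ k₁ l₁ m₁ g₁
  obtain ⟨y₂, d₁, d₂, d₃⟩ := side h.ok h.ok₂ (k := k) (by omega) G.h₂ a₂ c₂ k₂ l₂ m₂ g₂
  rw [show 3 * S.Λ δ + 3 - 2 = 3 * S.Λ δ + 1 by ring] at b₃ d₃
  exact ⟨y₁, y₂, Prod.ext b₂ d₂, by rw [b₁, d₁, hy], b₃, d₃⟩

end Crest.Agent.X212.Gr93
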