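import Crest.Agent.X212.Gr93.Loc
import Crest.Agent.X212.Sob92.Iso

/-!
# Row 212, GL-D0 (helper93): the equations correspond
-/

set_option autoImplicit false
set_option linter.unusedSectionVars false
noncomputable section
open scoped Manifold ContDiff Topology InnerProductSpace
open MeasureTheory Set Function Filter

namespace Crest.Agent.X212.Gr93
open An An.Pre Sob92 Prm93 Gls64 Sw Pb50
open M (Mf)

variable {κ lam ν : Type} [Fintype κ] [Fintype lam] [Fintype ν] [DecidableEq ν]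
  {d : Dt κ lam ν} {N : Type} [Fintype N] {ty : N → d.𝓔} {X X₁ X₂ : Mf 4}
  {nc nr n₁ r₁ n₂ r₂ : ℕ}
  {T T₁ T₂ : Type} [NormedAddCommGroup T] [NormedSpace ℝ T] [FiniteDimensional ℝ T]
  [NormedAddCommGroup T₁] [NormedSpace ℝ T₁] [FiniteDimensional ℝ T₁]
  [NormedAddCommGroup T₂] [NormedSpace ℝ T₂] [FiniteDimensional ℝ T₂]
  {s : Pz X 0 fun i => d.e (ty i)} {s₁ : Pz X₁ 0 fun i => d.e (ty i)}
  {σ : Cel s nc nr T} {σ₁ : Cel s₁ n₁ r₁ T₁} {k : ℕ} {q : d.W →₀ ℝ} {J : Finset d.W}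

theorem sum_al (o : σ.toFam.OK) (c y : σ.Pnt) (a : Option κ) (z : X.M) :
    ∑ b, σ.S y.1.1 z a b * (σ.al y.1.1 y.1.2 - σ.al c.1.1 c.1.2) z b =
      y.1.2.a a z - ∑ b, (∑ e, σ.S y.1.1 z a e * σ.Si c.1.1 z e b) * c.1.2.a b z := by
  simp only [Pi.sub_apply, PiLp.sub_apply, mul_sub, Finset.sum_sub_distrib,
    S_al o y.2.1 ((as_fam o y.2.1 _ _).1 y.2.2).2]
  simp only [Fam.al, Finset.mul_sum, Finset.sum_mul, mul_assoc]
  rw [Finset.sum_comm]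

theorem Ag.mono {φ : X₁.M → X.M} {g : X₁.M → ℝ} {a b : ℝ} {c : Cfg X.M κ ν} {c' : Cfg X₁.M κ ν}
    (h : Ag φ {p | g p < a} c c') (hb : b ≤ a) : Ag φ {p | g p < b} c c' :=
  fun p hp => h p (lt_of_lt_of_le (b := b) hp hb)

theorem cont_Φ {E : Type} [TopologicalSpace E] (hR : RepStmt d ty X nc nr T) (h : σ.OK)
    (hk : 7 ≤ k) {m : ℕ} {μ : T → Cfg X.M κ ν → Fin m → ℝ} (hμ : ∀ j, σ.Fn fun t c => μ t c j)
    (b : σ.C k) {A : E → σ.C k} (hA : Continuous A) {O : Set E} (hO : ∀ u ∈ O, A u ∈ σ.U k) :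
    ContinuousOn (fun u => Φ σ k q μ b (A u)) O :=
  (sm_Φ hR h hk hμ b).continuousOn.comp hA.continuousOn hO

variable {φ : OpenPartialHomeomorph X₁.M X.M} {c y : σ.Pnt} {x y₁ : σ₁.Pnt}

/-- the gauge rows correspond -/
theorem gR_lit (o : σ.toFam.OK) (o₁ : σ₁.toFam.OK) {O : Set X₁.M} (hO : IsOpen O)
    (hs : O ⊆ φ.source) (l : (σ₁.P x.1.1).bg.Lit (σ.P c.1.1).bg φ)
    (l' : (σ₁.P y₁.1.1).bg.Lit (σ.P y.1.1).bg φ) (ag : Ag φ O c.1.2 x.1.2)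
    (ag' : Ag φ O y.1.2 y₁.1.2) {p : X₁.M} (hp : p ∈ O) : gR σ c y (φ p) = gR σ₁ x y₁ p := by
  have U := fun z hz => u d ty X X₁ nc n₁ T T₁ s s₁ _ _ o o₁ _ y.2.1 _ c.2.1 _ y₁.2.1 _ x.2.1 φ l' l
    z (hs hz)
  have e : ∀ a, ∀ z ∈ O, ∑ b, σ₁.S y₁.1.1 z a b * (σ₁.al y₁.1.1 y₁.1.2 - σ₁.al x.1.1 x.1.2) z b =
      ∑ b, σ.S y.1.1 (φ z) a b * (σ.al y.1.1 y.1.2 - σ.al c.1.1 c.1.2) (φ z) b := fun a z hz => by
    simp only [sum_al o, sum_al o₁, (U z hz).1, (ag z hz).1, (ag' z hz).1]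
  have sm : ∀ a, Sm X.I fun z => ∑ b, σ.S y.1.1 z a b * (σ.al y.1.1 y.1.2 - σ.al c.1.1 c.1.2) z b :=
    fun a => contMDiff_finsetSum fun b _ => ((o.sS a b).cb _ y.2.1).choose_spec.1.mul
      ((((as_fam o y.2.1 _ _).1 y.2.2).1.1.sa b).sub (((as_fam o c.2.1 _ _).1 c.2.2).1.1.sa b))
  have w := l.w
  have j := l.J
  rw [o.w _ c.2.1, o₁.w _ x.2.1] at w
  rw [o.m _ c.2.1, o₁.m _ x.2.1] at j
  simp only [gR, Fam.gro]
  rw [w, j, Pi.sub_apply y.1.2.Φ, Pi.sub_apply y₁.1.2.Φ, (ag p hp).2, (ag' p hp).2]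
  refine congrArg (2 * · + _) (Finset.sum_congr rfl fun a _ => ?_)
  rw [(U p hp).2, e a p hp]
  exact congrArg (· + _) (iso_Dw l'.iso [a] (hs hp) (sm a _) (.of_forall (sm a))
    (eventually_of_mem (hO.mem_nhds hp) (e a))).symm

theorem d0_side (hR₁ : RepStmt d ty X₁ n₁ r₁ T₁) (o : σ.OK) (o₁ : σ₁.OK) (hk : 7 ≤ k)
    {g : X₁.M → ℝ} (hg : Hg s₁.bg.F.toPre g) {A a a₀ : ℝ} {e : Fin n₁ → Fin nc}
    (hs : {p | g p < A} ⊆ φ.source) (l : (σ₁.P x.1.1).bg.Lit (σ.P c.1.1).bg φ)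
    (M : Mt (σ.P y.1.1) (σ₁.P y₁.1.1) φ g A J e a₀) (h₀ : a₀ ≤ a) (hA : a + 3 ≤ A)
    (ag : Ag φ {p | g p < a + 2} c.1.2 x.1.2) (ag' : Ag φ {p | g p < a + 2} y.1.2 y₁.1.2)
    (hq : q.support ⊆ J) {b : ℝ → ℝ} (hb : Neck67.Sm b) (b0 : ∀ t, a ≤ t → b t = 0)
    {f : σ₁.Y k × Hr σ₁ k} {r : Fin r₁ → ℝ} (v : ∀ p, g p < a + 2 →
      s₁.bg.F.val _ _ f.1.1 p = (eq σ q y.1.1 y.1.2).1 (φ p) ∧
      s₁.bg.F.val _ _ f.1.2.1 p = (eq σ q y.1.1 y.1.2).2.1 (φ p) ∧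
      s₁.bg.F.val _ _ f.2 p = gR σ c y (φ p))
    (vc : ∀ j, f.1.2.2.1 j = (eq σ q y.1.1 y.1.2).2.2.1 (e j))
    (vr : f.1.2.2.2 = σ₁.R y₁.1.1 y₁.1.2 + r) :
    (mY σ₁ k g b).prodMap (mH σ₁ k g b) f = (mY σ₁ k g b (σ₁.F k q (σ₁.pt k y₁) + ro σ₁ k r),
      mH σ₁ k g b (gr σ₁ k (σ₁.pt k x) (σ₁.pt k y₁) + 0)) := by
  have lt : ∀ p, b (g p) ≠ 0 → g p < a := fun p hp => lt_of_not_ge fun k => hp (b0 _ k)
  have w : vl σ₁ k (σ₁.F k q (σ₁.pt k y₁) + ro σ₁ k r) = eq σ₁ q y₁.1.1 y₁.1.2 + (0, 0, 0, r) := by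
    rw [map_add, vl_F hR₁ o₁ hk]
    exact congrArg _ (Prod.ext val_zero (Prod.ext val_zero rfl))
  refine Prod.ext (mY_ext o₁.toOK hg hb (by omega) (fun p hp => ?_) fun _ =>
    (Prod.ext (funext fun j => ?_) vr).trans (congrArg (·.2.2) w).symm)
    (mH_ext o₁.toOK hg hb (by omega) fun p hp => ?_)
  · have E := eq_F (q := q) (M.eq a h₀ hA _ _ y.2.2.1 y₁.2.2.1 ag' p (lt p hp)) hq
    have V := v p (by linarith [lt p hp])
    rw [w]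
    exact ⟨V.1.trans (E.1.trans (add_zero _).symm), V.2.1.trans (E.2.trans (add_zero _).symm)⟩
  · exact (vc j).trans ((eq_S (M.cut _ _ y.2.2.1 y₁.2.2.1 (Ag.mono ag' (by linarith))) hq j).trans
      (add_zero _).symm)
  · have hp' : g p < a + 2 := by linarith [lt p hp]
    rw [add_zero, val_gr o₁ hk, ← gR_lit o.toOK o₁.toOK (isOpen_lt hg.sm.continuous continuous_const)
      (fun z (hz : g z < a + 2) => hs (lt_of_lt_of_le hz (by linarith))) l M.lit ag ag' hp']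
    exact (v p hp').2.2

variable (d ty X X₁ X₂ nc nr n₁ r₁ n₂ r₂ T T₁ T₂) in
/-- **GL-D0** -/
theorem d0 (hR : RepStmt d ty X nc nr T) (hR₁ : RepStmt d ty X₁ n₁ r₁ T₁)
    (hR₂ : RepStmt d ty X₂ n₂ r₂ T₂) : D0Stmt d ty X X₁ X₂ nc nr n₁ r₁ n₂ r₂ T T₁ T₂ := by
  intro s s₁ s₂ σ σ₁ σ₂ S x z xx zz cc G pre m R f hR' k hk J
  obtain ⟨η, hη, -, row⟩ := hR'.row
  have o := G.ok
  have o₁ := G.ok₁
  have o₂ := G.ok₂
  have k3 : 3 ≤ k := by omega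
  obtain ⟨ε, hε, hQ⟩ := Metric.isOpen_iff.1 (o₁.opn.prod o₂.opn) (x.1.1, z.1.1) ⟨x.2.1, z.2.1⟩
  obtain ⟨a₀, -, -, mt⟩ := (G.mt J).exists
  have η6 : 0 < η / 6 := by positivity
  refine ⟨min (ε / 2) (η / 12), by positivity, ?_⟩
  filter_upwards [row, mt, G.ht, pre.ag, (pre.cx (k + 1)).eventually (gt_mem_nhds η6),
    (pre.cz (k + 1)).eventually (gt_mem_nhds η6), (tendsto_comap.eventually
      (eventually_ge_atTop (|a₀| + 1))).filter_mono (inf_le_left : S.lg ≤ _)] with δ row mt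
    ⟨g, h₁, h₂⟩ ⟨e₁, e₂, e₀, g₁, g₂⟩ cx cz hΛ P Q C P' Q' C' E F τ hτ q hq b hb b0 u hu
  have a1 := le_abs_self a₀
  have a2 := abs_nonneg a₀
  let O : Set (Cx T₁ T₂ σ k) := {u | ‖P u‖ < min ε (η / 6)}
  have par : ∀ u ∈ O, (xx δ).1.1 + (P u).1.2.2 ∈ σ₁.Q ∧ (zz δ).1.1 + (P u).2.2.2 ∈ σ₂.Q :=
    fun u hu => hQ (a := (_, _)) (by
      rw [mem_ball_iff_norm, e₁, e₂, Prod.mk_sub_mk, add_sub_cancel_left, add_sub_cancel_left]
      exact (max_le ((norm_snd_le _).trans ((norm_snd_le _).trans (norm_fst_le _)))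
        ((norm_snd_le _).trans ((norm_snd_le _).trans (norm_snd_le _)))).trans_lt
          (lt_of_lt_of_le hu (min_le_left _ _)))
  have th : ∀ u, (σ.pt k (cc δ) + lA σ k (S.θ δ) u).2.2 =
      S.θ δ ((xx δ).1.1 + (P u).1.2.2, (zz δ).1.1 + (P u).2.2.2) := fun u => by
    rw [← Prod.mk_add_mk, E.par, add_comm _ u.2.2, ← vadd_eq_add u.2.2,
      ContinuousAffineMap.map_vadd, ← e₀]
    exact add_comm _ _
  have hU : ∀ u ∈ O, σ.pt k (cc δ) + lA σ k (S.θ δ) u ∈ σ.U k := fun u hu =>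
    mem_of_eq_of_mem (s := σ.Q) (th u) (mt _ (par u hu).1 _ (par u hu).2).1
  have cH : ContinuousOn (fun u => Hf σ k (S.θ δ) q (R.ρ τ) (cc δ) u) O :=
    cont_Φ hR o hk (hR'.fρ τ) _ (by fun_prop) hU
  have cS : ContinuousOn (fun u => Sf σ₁ σ₂ k q R.μ (σ₁.pt k (xx δ), σ₂.pt k (zz δ))
      (R.off δ τ - (0, R.μ x.1.1 x.1.2)) (P u)) O := ((mx σ₁ σ₂ k).continuous.comp_continuousOn
    ((cont_Φ hR₁ o₁ hk hR'.fμ _ (A := fun u => σ₁.pt k (xx δ) + (P u).1) (by fun_prop)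
      fun u hu => (par u hu).1).prodMk (cont_Φ hR₂ o₂ hk fn_zero _
        (A := fun u => σ₂.pt k (zz δ) + (P u).2) (by fun_prop) fun u hu => (par u hu).2))).add
      continuousOn_const
  refine eqOn_smo (O := O) o.site k3 (isOpen_lt (by fun_prop) continuous_const)
    ((mF σ₁ σ₂ k _ _ b).continuous.comp_continuousOn (P'.continuous.comp_continuousOn cH))
    ((mF σ₁ σ₂ k _ _ b).continuous.comp_continuousOn cS) (fun u hu su => ?_)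
    (hu.trans_lt (lt_min (by linarith [min_le_left (ε / 2) (η / 12)])
      (by linarith [min_le_right (ε / 2) (η / 12)])))
  obtain ⟨y, hy⟩ := pt_add o k3 (cc δ) (v := lA σ k (S.θ δ) u) su (hU u hu)
  have hy' : y.1.1 = _ := (congrArg (·.2.2) hy).trans (th u)
  obtain ⟨y₁, y₂, E', e, ag₁, ag₂⟩ := E.sm y _ (par u hu).1 _ (par u hu).2 hy'
  rw [co, hy, add_sub_cancel_left, add_sub_cancel_left, add_sub_cancel_left, E.par] at E'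
  have p₁ : σ₁.pt k y₁ = σ₁.pt k (xx δ) + (P u).1 := congrArg (·.1) E'
  have p₂ : σ₂.pt k y₂ = σ₂.pt k (zz δ) + (P u).2 := congrArg (·.2) E'
  have n : ‖P u‖ < η / 6 := lt_of_lt_of_le hu (min_le_right _ _)
  have rw := (F.rw (Φ σ k q (R.ρ τ) (σ.pt k (cc δ)) (σ.pt k y))).trans ((congrArg R.Lr (Prod.ext
    (congrArg (·.2.2.2) (vl_F hR o hk y)) (rv_pt (hR'.fρ τ) hk y))).trans (row τ hτ y y₁ y₂
      ((dk_le o₁ k3 (by omega) _ _).trans (by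
        rw [p₁, add_sub_right_comm]
        linarith [norm_add_le_of_le (norm_le_dk o₁.toOK (cr_of_gd o₁.gd) k3 (xx δ) x)
          (norm_fst_le (P u))]))
      ((dk_le o₂ k3 (by omega) _ _).trans (by
        rw [p₂, add_sub_right_comm]
        linarith [norm_add_le_of_le (norm_le_dk o₂.toOK (cr_of_gd o₂.gd) k3 (zz δ) z)
          (norm_snd_le (P u))]))
      ⟨e, Ag.mono ag₁ (by linarith), Ag.mono ag₂ (by linarith)⟩))
  obtain ⟨-, l₁, l₂⟩ := mt _ (xx δ).2.1 _ (zz δ).2.1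
  obtain ⟨-, m₁, m₂⟩ := mt _ y₁.2.1 _ y₂.2.1
  rw [← e₀] at l₁ l₂
  rw [← e] at m₁ m₂
  have v := vl_F (q := q) hR o hk y
  have v' := val_gr o hk (cc δ) y
  have r3 : 3 * S.Λ δ - 1 + 2 = 3 * S.Λ δ + 1 := by ring
  simp only [Hf, Sf, comp, ← hy, ← p₁, ← p₂, mx_apply]
  refine Prod.ext (d0_side hR₁ o o₁ hk G.hg.1 h₁.src l₁.lit m₁ (by linarith) (by linarith)
    (Ag.mono g₁ (by linarith)) (r3 ▸ ag₁) hq hb b0 (fun p hp => ?_) (fun j => ?_) ?_)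
    ((d0_side hR₂ o o₂ hk G.hg.2 h₂.src l₂.lit m₂ (by linarith) (by linarith)
      (Ag.mono g₂ (by linarith)) (r3 ▸ ag₂) hq hb b0 (fun p hp => ?_) (fun j => ?_) ?_).trans
        (congrArg (fun t => (mY σ₂ k S.g₂ b t, _)) ((congrArg _ (map_add _ _ _)).trans
          (add_assoc _ _ _).symm)))
  · rw [← v, ← v']; exact F.v₁ _ p (r3 ▸ hp)
  · rw [← v]; exact F.c₁ _ j
  · exact (congrArg (·.1) rw).trans (congrArg (σ₁.R _ _ + ·) (sub_zero _).symm)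
  · rw [← v, ← v']; exact F.v₂ _ p (r3 ▸ hp)
  · rw [← v]; exact F.c₂ _ j
  · refine (congrArg (·.2) rw).trans ?_
    rw [show (Φ σ₁ k q R.μ _ (σ₁.pt k y₁)).2.2 = _ from rv_pt hR'.fμ hk y₁, Prod.snd_add,
      Prod.snd_sub]
    dsimp only
    abel

end Crest.Agent.X212.Gr93
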