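import Crest.Agent.X212.Gls64.Ch
import Crest.Agent.X212.Neck67.Inst
import Crest.Agent.X212.Sob92.Iso
import Crest.Agent.X212.Mod61.Hs

/-!
# Row 212, GL-TR (helper93): transfer of sections between a glued manifold and its two faces
-/

set_option autoImplicit false
set_option linter.unusedSectionVars false
noncomputable section
open scoped Manifold ContDiff Topology InnerProductSpace
open MeasureTheory Set Function Filter

namespace Crest.Agent.X212.Gr93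
open An An.Pre Sob92 Prm93 Gls64
open M (Mf)
open Neck67 (dn dn_zero dn_one Bd)

variable {X X₁ X₂ : Mf 4} {ι : Type} [Fintype ι]
  {V : Type} [NormedAddCommGroup V] [InnerProductSpace ℝ V] [CompleteSpace V] {k : ℕ}

theorem chi_add (Λ t : ℝ) : χ Λ t + χ Λ (4 * Λ - t) = 1 := by
  have h : ∀ x, Real.smoothTransition (1 - x) + Real.smoothTransition x = 1 := fun x => by
    have := (Real.smoothTransition.pos_denom x).ne'
    simp only [Real.smoothTransition, sub_sub_cancel]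
    rw [add_comm (expNegInvGlue (1 - x)) (expNegInvGlue x), ← add_div, add_comm, div_self this]
  rw [← h (t - 2 * Λ + 1 / 2), χ, dn, dn]
  congr 2 <;> ring

theorem cb_ht {F : Pre X.I X.M ι} {g : X.M → ℝ} (hg : Sm X.I g) {C : ℝ}
    (hC : ∀ a, F.CB k (F.D a g) C) {b : ℝ → ℝ} (hb : ContDiff ℝ ∞ b) {A : ℝ} (hA : Bd k b A) :
    F.CB k (fun x => b (g x)) (Neck67.cT C k * A) :=
  Neck67.Pc.TB.cb_comp (P := { E := _, HM := _, I := X.I, M := X.M, ι := ι, F := F, t := g })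
    ⟨le_rfl, hg, hC⟩ hb hA

theorem Cb_ht {F : Pre X.I X.M ι} {g : X.M → ℝ} (hg : Sm X.I g) (hC : ∀ a, F.Cb (F.D a g))
    {b : ℝ → ℝ} (hb : Neck67.Sm b) : F.Cb fun x => b (g x) := by
  obtain ⟨C, h⟩ := Cb_unif hC
  choose A hA using hb.bd
  exact ⟨_, hb.cd.contMDiff.comp hg, fun k => cb_ht hg (fun a => (h a).2 k) hb.cd (hA k)⟩

theorem Cb_D_cmp {G F : Pre X.I X.M ι} (h : Cmp G F) {g : X.M → ℝ} (hC : ∀ a, G.Cb (G.D a g))
    (a : ι) : F.Cb (F.D a g) := by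
  obtain ⟨A, h1, h2⟩ := h.1.1
  rw [← h.Cb_iff, h1.D]
  exact Cb_sum _ fun b _ => Cb_smul (h2 a b) (hC b)

/-- values along a represented operator -/
theorem val_repT {G : Pre X.I X.M ι} {G₁ : Pre X₁.I X₁.M ι} {S S₁ : ℝ} (hS : Sup G S)
    (h₁ : Sup G₁ S₁) (hk : 4 ≤ k) {p : X.M → V →L[ℝ] V} {p₁ : X₁.M → V →L[ℝ] V}
    {L : G.H k p →L[ℝ] G₁.H k p₁} {R : (X.M → V) → X₁.M → V} (h : G.RepT G₁ L R) {x : X₁.M}
    (hc : Continuous fun u => R u x) (u : G.H k p) : G₁.val k p₁ (L u) x = R (G.val k p u) x := by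
  induction u using H_ind with
  | hP => exact isClosed_eq (by fun_prop) (hc.comp (continuous_pi fun y => by fun_prop))
  | h u => rw [RepT_toH h, val_toH hS hk, val_toH h₁ hk]

/-- a change of the frame and of the components -/
structure Tw (G F : Pre X.I X.M ι) (p A A' : X.M → V →L[ℝ] V) : Prop where
  cmp : Cmp G F
  cA : G.Cb A
  cA' : G.Cb A'
  mA : Maps p p A
  mA' : Maps p p A'
  l : ∀ x v, p x v = v → A' x (A x v) = v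
  r : ∀ x v, p x v = v → A x (A' x v) = v

theorem Tw.id {G F : Pre X.I X.M ι} (h : Cmp G F) (p : X.M → V →L[ℝ] V) :
    Tw G F p (triv X.M V) (triv X.M V) :=
  ⟨h, Cb_const _, Cb_const _, fun _ _ h => h, fun _ _ h => h, fun _ _ _ => rfl, fun _ _ _ => rfl⟩

/-- its operator -/
def fw (G F : Pre X.I X.M ι) (k : ℕ) (p A : X.M → V →L[ℝ] V) : G.H k p →L[ℝ] F.H k p :=
  G.liftT k k p F p fun u x => A x (u x)

section tw
variable {G F : Pre X.I X.M ι} {p A A' : X.M → V →L[ℝ] V} (h : Tw G F p A A')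
include h

theorem Tw.fw : G.RepT F (fw G F k p A) fun u x => A x (u x) := by
  have : G.RepT F _ fun u x => A x (u x) :=
    RepT_comp (rep_chg (k := k) h.cmp) (rep_mulH h.cA h.mA)
  rw [Gr93.fw, this.liftT_eq]; exact this

theorem Tw.bw : F.RepT G (Gr93.fw F G k p A') fun u x => A' x (u x) := by
  have : F.RepT G _ fun u x => A' x (u x) :=
    RepT_comp (rep_mulH (k := k) h.cA' h.mA') (rep_chg h.cmp.symm)
  rw [Gr93.fw, this.liftT_eq]; exact this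

theorem Tw.fb (u : F.H k p) : Gr93.fw G F k p A (Gr93.fw F G k p A' u) = u :=
  DFunLike.congr_fun (RepT_eq (RepT_comp h.fw h.bw) Rep_id
    fun u => funext fun x => h.r x _ (u.2.2.2 x)) u

end tw

/-- the cut-off -/
def bt (a : ℝ) : ℝ → ℝ := dn (a - 1) 1

/-- as a field of operators -/
abbrev bo (V : Type) [NormedAddCommGroup V] [InnerProductSpace ℝ V] (a : ℝ) (g : X.M → ℝ) (x : X.M) :
    V →L[ℝ] V := ContinuousLinearMap.lsmul ℝ ℝ (bt a (g x))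

/-- one face -/
structure Sd (F₁ : Pre X₁.I X₁.M ι) (F : Pre X.I X.M ι) (φ : OpenPartialHomeomorph X₁.M X.M)
    (g₁ : X₁.M → ℝ) (g : X.M → ℝ) (a : ℝ) (p₁ : X₁.M → V →L[ℝ] V) (p : X.M → V →L[ℝ] V) : Prop where
  iso : Iso F₁ F φ
  ht : Ht φ g₁ g a
  pp : ∀ x ∈ φ.source, p (φ x) = p₁ x

section sd
variable {φ : OpenPartialHomeomorph X₁.M X.M} {g₁ : X₁.M → ℝ} {g : X.M → ℝ} {a : ℝ}

theorem ht_eq (h : Ht φ g₁ g a) {b : ℝ → ℝ} (hb : ∀ t, a ≤ t → b t = 0) {x : X₁.M}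
    (hx : x ∈ φ.source) : b (g (φ x)) = b (g₁ x) := by
  have e : ∀ t, b t = b (min t a) := fun t => by
    rcases le_total t a with k | k
    · rw [min_eq_left k]
    · rw [min_eq_right k, hb t k, hb a le_rfl]
  rw [e, h.ht x hx, ← e]

theorem bt_zero {t : ℝ} (h : a - 1 ≤ t) : bt a t = 0 := dn_zero one_pos h

theorem bt_eq (h : Ht φ g₁ g a) {x : X₁.M} (hx : x ∈ φ.source) : bt a (g (φ x)) = bt a (g₁ x) :=
  ht_eq (b := bt a) h (fun _ k => bt_zero (by linarith)) hx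

theorem tsupp_bt (hg : Continuous g) : tsupport (fun x => bt a (g x)) ⊆ {x | g x ≤ a - 1} :=
  closure_minimal (fun _ hx => le_of_not_ge fun k => hx (bt_zero k))
    (isClosed_le hg continuous_const)

theorem tsupp_bo (hg : Continuous g) : tsupport (bo V a g) ⊆ {x | g x < a} := fun x hx => by
  have := tsupp_bt hg (tsupport_comp_subset (g := ContinuousLinearMap.lsmul ℝ ℝ (E := V))
    (map_zero _) (fun x => bt a (g x)) hx)
  exact lt_of_le_of_lt (b := a - 1) this (sub_one_lt a)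

theorem adm_bt (h : Ht φ g₁ g a) (hg : Continuous g₁) :
    Adm φ.symm (tsupport fun x => bt a (g₁ x)) := by
  refine Adm.mono (K := {x | g₁ x ≤ a - 1}) ⟨fun x hx =>
    h.src (lt_of_le_of_lt (b := a - 1) hx (sub_one_lt a)), ?_⟩ (isClosed_tsupport _) (tsupp_bt hg)
  convert isClosed_le h.cont (continuous_const (y := a - 1)) using 1
  ext y
  have e : y ∈ φ.target → (g₁ (φ.symm y) ≤ a - 1 ↔ g y ≤ a - 1) := fun hy => by
    have := h.ht _ (φ.map_target hy)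
    rw [φ.right_inv hy] at this
    have e : ∀ t, t ≤ a - 1 ↔ min t a ≤ a - 1 := fun t => by
      rw [min_le_iff, or_iff_left (by linarith)]
    rw [e, ← this, ← e]
  refine ⟨fun hy => (e hy.1).1 hy.2, fun hy => ?_⟩
  have hy' := h.tgt (lt_of_le_of_lt (b := a - 1) hy (sub_one_lt a))
  exact ⟨hy', (e hy').2 hy⟩

theorem bt_pull (h : Ht φ g₁ g a) : (fun y => bt a (g y)) = pull φ.symm fun x => bt a (g₁ x) :=
  funext fun y => by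
    by_cases hy : y ∈ φ.target
    · rw [pull_of_mem (φ := φ.symm) hy, ← bt_eq h (φ.map_target hy), φ.right_inv hy]
    · rw [pull_of_notMem (φ := φ.symm) hy, bt_zero (le_of_not_gt fun k => hy
        (h.tgt (lt_trans k (by linarith) : g y < a)))]

variable {F₁ G₁ : Pre X₁.I X₁.M ι} {F G : Pre X.I X.M ι} {p₁ A₁ A₁' : X₁.M → V →L[ℝ] V}
  {p A A' : X.M → V →L[ℝ] V} {C : ℝ}

variable (ι V k C) in
/-- the bound of the transfers -/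
def cP : ℝ :=
  cK ι k * abs (‖ContinuousLinearMap.lsmul ℝ ℝ (E := V)‖ * |Neck67.cT C k * Neck67.cS k|)

theorem cP_nonneg : 0 ≤ cP ι V k C := mul_nonneg (cK_nonneg k) (abs_nonneg _)

variable (h : Sd F₁ F φ g₁ g a p₁ p) (hg : Sm X₁.I g₁) (hC : ∀ b, F₁.CB k (F₁.D b g₁) C)
include h hg hC

theorem Sd.Q0 : F₁.RepT F (trH F F₁ φ.symm k p₁ p (bo V a g₁))
    (fun u => pull φ.symm fun y => bt a (g₁ y) • u y) ∧
      ‖trH F F₁ φ.symm k p₁ p (bo V a g₁)‖ ≤ cP ι V k C := by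
  have s : Sm X₁.I fun x => bt a (g₁ x) := (Neck67.sm_dn le_rfl _).cd.contMDiff.comp hg
  exact rep_trH (p' := p₁) (q := p) (iso_symm h.iso) ((ContinuousLinearMap.contMDiff _).comp s)
    (CB_clm (ContinuousLinearMap.lsmul ℝ ℝ (E := V)) s
      (CB_abs (cb_ht hg hC (Neck67.sm_dn le_rfl _).cd (Neck67.bd_dn k le_rfl _).of_succ)))
    ((tsupp_bo hg.continuous).trans h.ht.src) fun y hy v hv => by
      have := h.pp _ (φ.map_target hy)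
      rw [φ.right_inv hy] at this
      exact (map_smul _ _ _).trans (by rw [this, hv]; rfl)

theorem Sd.P0 : F.RepT F₁ (trH F₁ F φ k p p₁ (bo V a g))
    (fun u => pull φ fun y => bt a (g y) • u y) ∧ ‖trH F₁ F φ k p p₁ (bo V a g)‖ ≤ cP ι V k C := by
  have s : Sm X₁.I fun x => bt a (g₁ x) := (Neck67.sm_dn le_rfl _).cd.contMDiff.comp hg
  have s' := sm_pull (iso_symm h.iso) s (adm_bt h.ht hg.continuous)
  have c := CB_pull (iso_symm h.iso) k s (adm_bt h.ht hg.continuous)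
    (cb_ht hg hC (Neck67.sm_dn le_rfl _).cd (Neck67.bd_dn k le_rfl _).of_succ)
  rw [← bt_pull h.ht] at s' c
  exact rep_trH (p' := p) (q := p₁) h.iso ((ContinuousLinearMap.contMDiff _).comp s')
    (CB_clm (ContinuousLinearMap.lsmul ℝ ℝ (E := V)) s' c)
    ((tsupp_bo h.ht.cont).trans h.ht.tgt) fun y hy v hv =>
      (map_smul _ _ _).trans (by rw [← h.pp y hy, hv]; rfl)

end sd

/-- from the glued manifold to a face -/
def trP (G F : Pre X.I X.M ι) (G₁ F₁ : Pre X₁.I X₁.M ι) (φ : OpenPartialHomeomorph X₁.M X.M)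
    (g : X.M → ℝ) (a : ℝ) (k : ℕ) (p A : X.M → V →L[ℝ] V) (p₁ A₁' : X₁.M → V →L[ℝ] V) :
    G.H k p →L[ℝ] G₁.H k p₁ :=
  fw F₁ G₁ k p₁ A₁' ∘L trH F₁ F φ k p p₁ (bo V a g) ∘L fw G F k p A

/-- from a face to the glued manifold -/
def trQ (G F : Pre X.I X.M ι) (G₁ F₁ : Pre X₁.I X₁.M ι) (φ : OpenPartialHomeomorph X₁.M X.M)
    (g₁ : X₁.M → ℝ) (a : ℝ) (k : ℕ) (p A' : X.M → V →L[ℝ] V) (p₁ A₁ : X₁.M → V →L[ℝ] V) :
    G₁.H k p₁ →L[ℝ] G.H k p :=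
  fw F G k p A' ∘L trH F F₁ φ.symm k p₁ p (bo V a g₁) ∘L fw G₁ F₁ k p₁ A₁

/-- at function level -/
def fP (φ : OpenPartialHomeomorph X₁.M X.M) (g : X.M → ℝ) (a : ℝ) (A : X.M → V →L[ℝ] V)
    (A₁' : X₁.M → V →L[ℝ] V) (u : X.M → V) (x : X₁.M) : V :=
  A₁' x (pull φ (fun y => bt a (g y) • A y (u y)) x)

section one
variable {φ : OpenPartialHomeomorph X₁.M X.M} {g₁ : X₁.M → ℝ} {g : X.M → ℝ} {a : ℝ}
  {F₁ G₁ : Pre X₁.I X₁.M ι} {F G : Pre X.I X.M ι} {p₁ A₁ A₁' : X₁.M → V →L[ℝ] V}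
  {p A A' : X.M → V →L[ℝ] V}

theorem fP_eq (h : Ht φ g₁ g a) (u : X.M → V) {x : X₁.M} (hx : g₁ x ≤ a - 2) :
    fP φ g a A A₁' u x = A₁' x (A (φ x) (u (φ x))) := by
  have hs := h.src (lt_of_le_of_lt hx (by linarith) : g₁ x < a)
  rw [fP, pull_of_mem hs, bt_eq h hs, bt, dn_one one_pos (by linarith), one_smul]

variable (h : Sd F₁ F φ g₁ g a p₁ p) (hg : Sm X₁.I g₁) (hC : ∀ b, G₁.Cb (G₁.D b g₁))
  (t : Tw G F p A A') (t₁ : Tw G₁ F₁ p₁ A₁ A₁')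
include h hg hC t t₁

theorem rep_P : G.RepT G₁ (trP G F G₁ F₁ φ g a k p A p₁ A₁') (fP φ g a A A₁') := by
  obtain ⟨_, c⟩ := Cb_unif (Cb_D_cmp t₁.cmp hC)
  have := RepT_comp t₁.bw (RepT_comp (h.P0 hg fun b => (c b).2 k).1 t.fw)
  exact this

theorem val_P {S S₁ : ℝ} (hS : Sup G S) (h₁ : Sup G₁ S₁) (hk : 4 ≤ k) (u : G.H k p) :
    G₁.val k p₁ (trP G F G₁ F₁ φ g a k p A p₁ A₁' u) = fP φ g a A A₁' (G.val k p u) :=
  funext fun x => val_repT hS h₁ hk (rep_P h hg hC t t₁) (by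
    by_cases hx : x ∈ φ.source
    · simp only [fP, pull_of_mem hx]; fun_prop
    · simp only [fP, pull_of_notMem hx]; fun_prop) u

theorem hs_P {S S₁ : ℝ} (hS : Sup G S) (h₁ : Sup G₁ S₁) {u : X.M → V} (hu : u ∈ Mod61.Hs G p) :
    fP φ g a A A₁' u ∈ Mod61.Hs G₁ p₁ := fun k hk =>
  let ⟨w, hw⟩ := hu k hk
  ⟨_, hw ▸ val_P h hg hC t t₁ hS h₁ hk w⟩

theorem rep_QP {b : ℝ → ℝ} (hb : Neck67.Sm b) (h0 : ∀ r, a - 2 ≤ r → b r = 0) :
    G.Rep (trQ G F G₁ F₁ φ g₁ a k p A' p₁ A₁ ∘L smulH G₁ k p₁ (fun x => b (g₁ x)) ∘L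
      trP G F G₁ F₁ φ g a k p A p₁ A₁') fun u y => b (g y) • u y := by
  obtain ⟨_, c⟩ := Cb_unif (Cb_D_cmp t₁.cmp hC)
  refine RepT_congr (RepT_comp (RepT_comp t.bw (RepT_comp (h.Q0 hg fun b => (c b).2 k).1 t₁.fw))
    (RepT_comp (rep_smulH (Cb_ht hg hC hb)) (rep_P h hg hC t t₁))) fun u => funext fun y => ?_
  by_cases hy : y ∈ φ.target
  · have hx := φ.map_target hy
    have e := ht_eq h.ht (fun r k => h0 r (by linarith)) hx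
    rw [φ.right_inv hy] at e
    simp only [pull_of_mem (φ := φ.symm) hy, ← e]
    by_cases h1 : g₁ (φ.symm y) ≤ a - 2
    · rw [fP_eq h.ht _ h1, φ.right_inv hy, bt, dn_one one_pos (by linarith), one_smul, map_smul,
        t₁.r _ _ (by rw [← h.pp _ hx, φ.right_inv hy]; exact t.mA _ _ (u.2.2.2 y)), map_smul,
        t.l _ _ (u.2.2.2 y)]
    · simp only [e, h0 _ (le_of_not_ge h1), zero_smul, map_zero, smul_zero]
  · simp only [pull_of_notMem (φ := φ.symm) hy, map_zero]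
    rw [h0 _ (le_of_not_gt fun k => hy (h.ht.tgt (lt_trans k (by linarith) : g y < a))), zero_smul]

end one

/-- a pair of transfers -/
structure Pr {H H₁ H₂ : Type} [NormedAddCommGroup H] [NormedSpace ℝ H] [NormedAddCommGroup H₁]
    [NormedSpace ℝ H₁] [NormedAddCommGroup H₂] [NormedSpace ℝ H₂] (m₁ : H₁ →L[ℝ] H₁)
    (m₂ : H₂ →L[ℝ] H₂) (P₁ : H →L[ℝ] H₁) (P₂ : H →L[ℝ] H₂) (Q₁ : H₁ →L[ℝ] H) (Q₂ : H₂ →L[ℝ] H)
    (C : ℝ) : Prop where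
  inv : ∀ u, Q₁ (m₁ (P₁ u)) + Q₂ (m₂ (P₂ u)) = u
  b₁ : ∀ v w r, ‖v‖ ≤ r → ‖w‖ ≤ r → ‖P₁ (Q₁ v + Q₂ w)‖ ≤ C * r
  b₂ : ∀ v w r, ‖v‖ ≤ r → ‖w‖ ≤ r → ‖P₂ (Q₁ v + Q₂ w)‖ ≤ C * r

section two
variable {g₁ : X₁.M → ℝ} {g₂ : X₂.M → ℝ} {F₁ G₁ : Pre X₁.I X₁.M ι} {F₂ G₂ : Pre X₂.I X₂.M ι}
  {p₁ A₁ A₁' : X₁.M → V →L[ℝ] V} {p₂ A₂ A₂' : X₂.M → V →L[ℝ] V}
  (s₁ : Sm X₁.I g₁) (c₁ : ∀ b, G₁.Cb (G₁.D b g₁)) (t₁ : Tw G₁ F₁ p₁ A₁ A₁')
  (s₂ : Sm X₂.I g₂) (c₂ : ∀ b, G₂.Cb (G₂.D b g₂)) (t₂ : Tw G₂ F₂ p₂ A₂ A₂')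
include s₁ c₁ t₁ s₂ c₂ t₂

theorem bd_PQ (k : ℕ) : ∃ C, 0 ≤ C ∧ ∀ (G F : Pre X.I X.M ι) (p A A' : X.M → V →L[ℝ] V) φ₁ φ₂ g g' a,
    Tw G F p A A' → Sd F₁ F φ₁ g₁ g a p₁ p → Sd F₂ F φ₂ g₂ g' a p₂ p → ∀ v,
      ‖trP G F G₁ F₁ φ₁ g a k p A p₁ A₁' (trQ G F G₂ F₂ φ₂ g₂ a k p A' p₂ A₂ v)‖ ≤ C * ‖v‖ := by
  obtain ⟨C₁, d₁⟩ := Cb_unif (Cb_D_cmp t₁.cmp c₁)
  obtain ⟨C₂, d₂⟩ := Cb_unif (Cb_D_cmp t₂.cmp c₂)
  have n₁ := cP_nonneg (ι := ι) (V := V) (k := k) (C := C₁ k)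
  have n₂ := cP_nonneg (ι := ι) (V := V) (k := k) (C := C₂ k)
  refine ⟨‖fw F₁ G₁ k p₁ A₁'‖ * (cP ι V k (C₁ k) * (cP ι V k (C₂ k) * ‖fw G₂ F₂ k p₂ A₂‖)),
    by positivity, fun G F p A A' φ₁ φ₂ g g' a t h₁ h₂ v => ?_⟩
  simp only [trP, trQ, ContinuousLinearMap.comp_apply, t.fb, mul_assoc]
  refine (ContinuousLinearMap.le_opNorm _ _).trans (mul_le_mul_of_nonneg_left
    ((ContinuousLinearMap.le_of_opNorm_le _ (h₁.P0 s₁ fun b => (d₁ b).2 k).2 _).trans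
      (mul_le_mul_of_nonneg_left ((ContinuousLinearMap.le_of_opNorm_le _
        (h₂.Q0 s₂ fun b => (d₂ b).2 k).2 _).trans (mul_le_mul_of_nonneg_left
          (ContinuousLinearMap.le_opNorm _ _) n₂)) n₁)) (norm_nonneg _))

/-- **the transfers** -/
theorem pair (k : ℕ) : ∃ C, 0 ≤ C ∧ ∀ Λ, 0 ≤ Λ → ∀ (G F : Pre X.I X.M ι) (p A A' : X.M → V →L[ℝ] V)
    φ₁ φ₂ g, Tw G F p A A' → Sd F₁ F φ₁ g₁ g (3 * Λ + 3) p₁ p →
    Sd F₂ F φ₂ g₂ (fun y => 4 * Λ - g y) (3 * Λ + 3) p₂ p →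
    Pr (smulH G₁ k p₁ fun x => χ Λ (g₁ x)) (smulH G₂ k p₂ fun x => χ Λ (g₂ x))
      (trP G F G₁ F₁ φ₁ g (3 * Λ + 3) k p A p₁ A₁')
      (trP G F G₂ F₂ φ₂ (fun y => 4 * Λ - g y) (3 * Λ + 3) k p A p₂ A₂')
      (trQ G F G₁ F₁ φ₁ g₁ (3 * Λ + 3) k p A' p₁ A₁)
      (trQ G F G₂ F₂ φ₂ g₂ (3 * Λ + 3) k p A' p₂ A₂) C := by
  obtain ⟨a, a0, ha⟩ := bd_PQ (X := X) s₁ c₁ t₁ s₁ c₁ t₁ k
  obtain ⟨b, b0, hb⟩ := bd_PQ (X := X) s₁ c₁ t₁ s₂ c₂ t₂ k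
  obtain ⟨c, c0, hc⟩ := bd_PQ (X := X) s₂ c₂ t₂ s₁ c₁ t₁ k
  obtain ⟨d, d0, hd⟩ := bd_PQ (X := X) s₂ c₂ t₂ s₂ c₂ t₂ k
  refine ⟨a + b + c + d, by positivity, fun Λ hΛ G F p A A' φ₁ φ₂ g t h₁ h₂ => ⟨fun u => ?_,
    fun v w r hv hw => ?_, fun v w r hv hw => ?_⟩⟩
  · have h0 : ∀ r, 3 * Λ + 3 - 2 ≤ r → χ Λ r = 0 := fun r hr => dn_zero one_pos (by linarith)
    exact DFunLike.congr_fun (RepT_eq (RepT_add (rep_QP h₁ s₁ c₁ t t₁ (Neck67.sm_dn le_rfl _) h0)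
      (rep_QP h₂ s₂ c₂ t t₂ (Neck67.sm_dn le_rfl _) h0)) Rep_id fun u => funext fun y =>
        (add_smul _ _ _).symm.trans ((congrArg (· • _) (chi_add Λ (g y))).trans (one_smul _ _))) u
  · have := (norm_nonneg v).trans hv
    rw [map_add]
    refine (norm_add_le_of_le (ha G F p A A' _ _ _ _ _ t h₁ h₁ v)
      (hb G F p A A' _ _ _ _ _ t h₁ h₂ w)).trans ?_
    nlinarith [mul_le_mul_of_nonneg_left hv a0, mul_le_mul_of_nonneg_left hw b0]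
  · have := (norm_nonneg v).trans hv
    rw [map_add]
    refine (norm_add_le_of_le (hc G F p A A' _ _ _ _ _ t h₂ h₁ v)
      (hd G F p A A' _ _ _ _ _ t h₂ h₂ w)).trans ?_
    nlinarith [mul_le_mul_of_nonneg_left hv c0, mul_le_mul_of_nonneg_left hw d0]

end two

end Crest.Agent.X212.Gr93
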